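import Vale.Agent.P237.Quant.FourPolyDefs

/-!
The numbers of the tail of dimension five: the flux and the lower bound of the gain for each sign of
the linear term, and the nodes of the envelope.
-/

namespace Vale.Agent.P237.Quant.FourPoly

/-- The side where the linear term is nonnegative. -/
def sidePos : Side where
  a := [[2830, 8293, 7812, (-2028)],
    [(-135), 39179, (-4048), (-43459)],
    [4657, (-125037), (-123619), (-74493)],
    [(-7670), 79771, 127440, 125465]]
  g := [[19821, (-1046), 292104, (-46727), 5870],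
    [24138, (-452147), 247197, 425353, 43881],
    [211121, 481121, (-2069888), (-1922861), 222814],
    [(-446427), 506151, 4122287, 2417788, (-1118852)],
    [234076, (-534084), (-2172217), (-873421), 845604]]
  θn := 29
  θd := 25
  ε := 898

/-- The side where the linear term is negative. -/
def sideNeg : Side where
  a := [[4767, 3564, 15311, (-5116)],
    [(-4724), 73197, (-65757), (-8334)],
    [12538, (-199265), (-32133), (-89222)],
    [(-12781), 123463, 90276, 113117]]
  g := [[43821, (-17940), 213161, (-174159), (-59313)],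
    [22290, (-294117), 920137, 1417611, 533158],
    [270274, (-43406), (-3842508), (-4183716), (-880060)],
    [(-444345), 1186380, 5951819, 4425127, (-78093)],
    [197626, (-832028), (-2815341), (-1482278), 474982]]
  θn := 39
  θd := 50
  ε := 782

/-- The envelope. -/
def nodes : List Node := [
  ⟨0, 1, 1369, 625⟩,
  ⟨3271, 5000, 414408557, 500000000⟩,
  ⟨1427, 2000, 393799557, 500000000⟩,
  ⟨7641, 10000, 120724737, 250000000⟩,
  ⟨2017, 2500, 68624071, 250000000⟩,
  ⟨337, 400, 54069661, 250000000⟩,
  ⟨109, 125, 44243067, 250000000⟩,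
  ⟨8963, 10000, 1168029, 7812500⟩,
  ⟨4581, 5000, 12987569, 100000000⟩,
  ⟨2331, 2500, 14463619, 125000000⟩,
  ⟨591, 625, 105106457, 1000000000⟩,
  ⟨4781, 5000, 485947409, 5000000000⟩,
  ⟨603, 625, 11392321, 125000000⟩,
  ⟨4859, 5000, 432809609, 5000000000⟩,
  ⟨4887, 5000, 20746579, 250000000⟩,
  ⟨4909, 5000, 401272269, 5000000000⟩,
  ⟨4927, 5000, 390401857, 5000000000⟩,
  ⟨9883, 10000, 95458103, 1250000000⟩,
  ⟨9907, 10000, 374870469, 5000000000⟩,
  ⟨397, 400, 184839893, 2500000000⟩,
  ⟨497, 500, 365438231, 5000000000⟩,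
  ⟨622, 625, 72411671, 1000000000⟩,
  ⟨9961, 10000, 4494433, 62500000⟩,
  ⟨9969, 10000, 714631, 10000000⟩,
  ⟨399, 400, 22228199, 312500000⟩,
  ⟨499, 500, 354273723, 5000000000⟩,
  ⟨624, 625, 353180889, 5000000000⟩,
  ⟨9987, 10000, 352339819, 5000000000⟩,
  ⟨999, 1000, 70306211, 1000000000⟩]

end Vale.Agent.P237.Quant.FourPoly
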