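import Vale.Agent.P237.Quant.FourTailData.PolyPos

/-!
The subdivisions of the chart of `1 / s`, of the gaps and of the centre.
-/

namespace Vale.Agent.P237.Quant.FourPoly.Pos

/-- Subdivision. -/
def farTree : Tree := (.cut 0
    (.env 0)
    (.cut 0
      (.env 3)
      (.cut 0
        (.env 11)
        (.cut 0
          (.env 18)
          (.cut 2
            .dir
            (.cut 0
              (.cut 2
                (.cut 0 (.env 24) (.cut 1 (.env 27) .dir))
                (.cut 0
                  (.env 24)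
                  (.cut 1
                    (.env 27)
                    (.cut 2
                      (.cut 0 (.env 27) (.cut 1 (.env 28) (.cut 2 .dir .dir)))
                      .dir))))
              (.cut 2
                .dir
                (.cut 0
                  (.cut 1
                    (.cut 2
                      (.cut 0 (.env 28) (.cut 1 (.env 28) (.cut 2 .dir .dir)))
                      .dir)
                    (.cut 2 (.cut 0 (.cut 1 (.cut 2 .dir .dir) .dir) .dir) .dir))
                  (.cut 1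
                    (.cut 2 (.cut 0 (.cut 1 (.cut 2 .dir .dir) .dir) .dir) .dir)
                    (.cut 2 .dir .dir))))))))))

theorem farTree_ok : checkTree true far nodes ⟨⟨0, 1, 1⟩, ⟨0, 1, 15⟩, ⟨-1, 1, 1⟩⟩ farTree = true := by
  decide +kernel

/-- Subdivision. -/
def gapNegTree : Tree := (.cut 0
    (.cut 2
      (.cut 0 (.cut 2 .dir (.cut 0 .dir .dir)) .dir)
      (.cut 0 (.cut 2 (.cut 0 .dir .dir) (.cut 0 .dir .dir)) .dir))
    (.cut 2
      (.cut 0
        (.cut 2 .dir (.cut 0 .dir (.cut 2 .dir .dir)))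
        (.cut 2 .dir (.cut 0 (.cut 2 .dir .dir) .dir)))
      (.cut 0 (.cut 2 .dir (.cut 0 .dir .dir)) .dir)))

theorem gapNegTree_ok : checkOne polyGapNeg ⟨⟨0, 1, 1⟩, ⟨0, 1, 1⟩, ⟨-1, 0, 1⟩⟩ gapNegTree = true := by
  decide +kernel

/-- Subdivision. -/
def gapPosTree : Tree := (.cut 0
    (.cut 2
      (.cut 0 (.cut 2 (.cut 0 .dir .dir) (.cut 0 .dir .dir)) .dir)
      (.cut 0 .dir .dir))
    (.cut 2
      (.cut 0 (.cut 2 .dir .dir) (.cut 2 .dir .dir))
      (.cut 0 .dir (.cut 2 .dir (.cut 0 .dir .dir)))))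

theorem gapPosTree_ok : checkOne polyGapPos ⟨⟨0, 1, 1⟩, ⟨0, 1, 1⟩, ⟨0, 1, 1⟩⟩ gapPosTree = true := by
  decide +kernel

/-- Subdivision. -/
def startTree : Tree := (.cut 1 (.cut 1 (.cut 1 .dir .dir) .dir) .dir)

theorem startTree_ok : checkOne polyStart ⟨⟨0, 1, 1⟩, ⟨0, 39, 32⟩, ⟨-1, 1, 1⟩⟩ startTree = true := by
  decide +kernel

end Vale.Agent.P237.Quant.FourPoly.Pos
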