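import Vale.Agent.P237.Quant.FourTailData.PolyNeg

/-!
The subdivision of the chart of `s`, part 6.
-/

namespace Vale.Agent.P237.Quant.FourPoly.Neg

/-- Subtree 153. -/
def main153 : Tree := .dir

theorem main153_ok : checkTree false near nodes ((((((((⟨⟨0, 1, 1⟩, ⟨0, 16, 1⟩, ⟨-1, 1, 1⟩⟩ : Box3).half 1 true).half 0 true).half 0 true).half 0 true).half 1 true).half 0 true).half 2 false) main153 = true := by
  decide +kernel

/-- Subtree 154. -/
def main154 : Tree := (.cut 2
    .dir
    (.cut 1
      (.cut 0 (.env 24) (.cut 2 .dir .dir))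
      (.cut 0 (.env 24) (.cut 2 (.cut 0 (.env 27) .dir) .dir))))

theorem main154_ok : checkTree false near nodes (((((((((⟨⟨0, 1, 1⟩, ⟨0, 16, 1⟩, ⟨-1, 1, 1⟩⟩ : Box3).half 1 true).half 0 true).half 0 true).half 0 true).half 1 true).half 0 true).half 2 true).half 0 false) main154 = true := by
  decide +kernel

/-- Subtree 155. -/
def main155 : Tree := (.cut 2
    .dir
    (.cut 1
      (.cut 0 (.cut 2 .dir .dir) (.cut 2 .dir .dir))
      (.cut 0 (.cut 2 .dir .dir) (.cut 2 .dir .dir))))

theorem main155_ok : checkTree false near nodes (((((((((⟨⟨0, 1, 1⟩, ⟨0, 16, 1⟩, ⟨-1, 1, 1⟩⟩ : Box3).half 1 true).half 0 true).half 0 true).half 0 true).half 1 true).half 0 true).half 2 true).half 0 true) main155 = true := by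
  decide +kernel

end Vale.Agent.P237.Quant.FourPoly.Neg
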