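import Vale.Agent.P237.Quant.FourPolySound
import Vale.Agent.P237.Quant.FourTailData.TreeNeg0
import Vale.Agent.P237.Quant.FourTailData.TreeNeg1
import Vale.Agent.P237.Quant.FourTailData.TreeNeg2
import Vale.Agent.P237.Quant.FourTailData.TreeNeg3
import Vale.Agent.P237.Quant.FourTailData.TreeNeg4
import Vale.Agent.P237.Quant.FourTailData.TreeNeg5
import Vale.Agent.P237.Quant.FourTailData.TreeNeg6

/-!
The subdivision of the chart of `s` put together.
-/

namespace Vale.Agent.P237.Quant.FourPoly.Neg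

/-- The subdivision. -/
def mainTree : Tree := (.cut 1 (.cut 1 (.cut 1 (.cut 1 (.cut 0 (.cut 1 (.cut 2 main0 main1) main2) (.cut 1 (.cut 2 main3 main4) main5)) (.cut 0 (.cut 1 (.cut 2 main6 (.cut 0 main7 (.cut 1 (.cut 2 (.cut 0 main8 (.cut 1 main9 main10)) main11) main12))) (.cut 2 main13 main14)) (.cut 1 (.cut 2 main15 (.cut 0 (.cut 1 (.cut 2 (.cut 0 (.cut 1 main16 main17) (.cut 1 main18 main19)) main20) (.cut 2 (.cut 0 main21 main22) main23)) (.cut 1 (.cut 2 (.cut 0 (.cut 1 main24 main25) (.cut 1 (.cut 2 (.cut 0 main26 (.cut 1 (.cut 2 (.cut 0 main27 (.cut 1 main28 (.cut 2 main29 (.cut 0 main30 main31)))) main32) main33)) main34) main35)) main36) main37))) (.cut 2 main38 (.cut 0 (.cut 2 (.cut 0 main39 (.cut 1 (.cut 2 main40 (.cut 0 main41 main42)) (.cut 2 main43 (.cut 0 main44 (.cut 1 main45 main46))))) (.cut 0 main47 (.cut 1 main48 (.cut 2 (.cut 0 main49 (.cut 1 main50 main51)) main52)))) main53))))) (.cut 0 main54 (.cut 1 (.cut 2 main55 (.cut 0 (.cut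 1 (.cut 2 main56 main57) main58) (.cut 1 (.cut 2 (.cut 0 (.cut 1 (.cut 2 main59 (.cut 0 main60 main61)) (.cut 2 main62 (.cut 0 (.cut 2 main63 main64) main65))) main66) (.cut 0 (.cut 1 (.cut 2 (.cut 0 (.cut 1 main67 (.cut 2 (.cut 0 main68 main69) main70)) main71) main72) (.cut 2 (.cut 0 (.cut 2 (.cut 1 main73 main74) main75) main76) main77)) main78)) (.cut 2 (.cut 0 (.cut 2 main79 (.cut 0 main80 main81)) main82) (.cut 0 (.cut 2 (.cut 0 (.cut 1 (.cut 2 (.cut 0 main83 (.cut 1 main84 main85)) main86) main87) (.cut 1 main88 (.cut 0 (.cut 2 (.cut 1 main89 main90) main91) main92))) main93) main94))))) (.cut 0 main95 (.cut 2 main96 (.cut 0 (.cut 2 (.cut 1 main97 main98) (.cut 1 (.cut 0 main99 (.cut 2 (.cut 1 (.cut 0 (.cut 2 main100 main101) main102) (.cut 0 main103 (.cut 2 main104 main105))) main106)) (.cut 0 main107 (.cut 2 (.cut 0 main108 (.cut 1 main109 main110)) main111)))) main112)))))) (.cut 0 main113 (.cut 0 main114 (.cut 1 (.cut 2 main115 (.cut 0 main116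 (.cut 1 (.cut 2 main117 (.cut 0 (.cut 1 (.cut 2 (.cut 0 (.cut 1 main118 (.cut 2 main119 main120)) main121) main122) (.cut 2 (.cut 0 (.cut 2 (.cut 1 main123 main124) (.cut 1 main125 main126)) main127) main128)) main129)) (.cut 2 main130 (.cut 0 (.cut 2 (.cut 0 main131 (.cut 1 main132 (.cut 0 main133 main134))) main135) main136))))) (.cut 0 main137 (.cut 2 main138 (.cut 0 (.cut 2 main139 (.cut 1 main140 main141)) main142))))))) (.cut 0 main143 (.cut 0 main144 (.cut 0 main145 (.cut 1 (.cut 2 main146 (.cut 0 main147 (.cut 1 (.cut 2 main148 (.cut 0 main149 main150)) main151))) (.cut 0 main152 (.cut 2 main153 (.cut 0 main154 main155))))))))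

theorem mainTree_ok : checkTree false near nodes (⟨⟨0, 1, 1⟩, ⟨0, 16, 1⟩, ⟨-1, 1, 1⟩⟩ : Box3) mainTree = true :=
  (cut_ok (cut_ok (cut_ok (cut_ok (cut_ok (cut_ok (cut_ok main0_ok main1_ok) main2_ok) (cut_ok (cut_ok main3_ok main4_ok) main5_ok)) (cut_ok (cut_ok (cut_ok main6_ok (cut_ok main7_ok (cut_ok (cut_ok (cut_ok main8_ok (cut_ok main9_ok main10_ok)) main11_ok) main12_ok))) (cut_ok main13_ok main14_ok)) (cut_ok (cut_ok main15_ok (cut_ok (cut_ok (cut_ok (cut_ok (cut_ok main16_ok main17_ok) (cut_ok main18_ok main19_ok)) main20_ok) (cut_ok (cut_ok main21_ok main22_ok) main23_ok)) (cut_ok (cut_ok (cut_ok (cut_ok main24_ok main25_ok) (cut_ok (cut_ok (cut_ok main26_ok (cut_ok (cut_ok (cut_ok main27_ok (cut_ok main28_ok (cut_ok main29_ok (cut_ok main30_ok main31_ok)))) main32_ok) main33_ok)) main34_ok) main35_ok)) main36_ok) main37_ok))) (cut_ok main38_ok (cut_ok (cut_ok (cut_ok main39_ok (cut_ok (cut_ok main40_ok (cut_ok main41_ok main42_ok)) (cut_ok main43_ok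 (cut_ok main44_ok (cut_ok main45_ok main46_ok))))) (cut_ok main47_ok (cut_ok main48_ok (cut_ok (cut_ok main49_ok (cut_ok main50_ok main51_ok)) main52_ok)))) main53_ok))))) (cut_ok main54_ok (cut_ok (cut_ok main55_ok (cut_ok (cut_ok (cut_ok main56_ok main57_ok) main58_ok) (cut_ok (cut_ok (cut_ok (cut_ok (cut_ok main59_ok (cut_ok main60_ok main61_ok)) (cut_ok main62_ok (cut_ok (cut_ok main63_ok main64_ok) main65_ok))) main66_ok) (cut_ok (cut_ok (cut_ok (cut_ok (cut_ok main67_ok (cut_ok (cut_ok main68_ok main69_ok) main70_ok)) main71_ok) main72_ok) (cut_ok (cut_ok (cut_ok (cut_ok main73_ok main74_ok) main75_ok) main76_ok) main77_ok)) main78_ok)) (cut_ok (cut_ok (cut_ok main79_ok (cut_ok main80_ok main81_ok)) main82_ok) (cut_ok (cut_ok (cut_ok (cut_ok (cut_ok (cut_ok main83_ok (cut_ok main84_ok main85_ok)) main86_ok) main87_ok) (cut_ok main88_ok (cut_ok (cut_ok (cut_ok main89_ok main90_ok) main91_ok) main92_ok))) main93_ok) main94_ok))))) (cut_ok main95_ok (cut_ok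 main96_ok (cut_ok (cut_ok (cut_ok main97_ok main98_ok) (cut_ok (cut_ok main99_ok (cut_ok (cut_ok (cut_ok (cut_ok main100_ok main101_ok) main102_ok) (cut_ok main103_ok (cut_ok main104_ok main105_ok))) main106_ok)) (cut_ok main107_ok (cut_ok (cut_ok main108_ok (cut_ok main109_ok main110_ok)) main111_ok)))) main112_ok)))))) (cut_ok main113_ok (cut_ok main114_ok (cut_ok (cut_ok main115_ok (cut_ok main116_ok (cut_ok (cut_ok main117_ok (cut_ok (cut_ok (cut_ok (cut_ok (cut_ok main118_ok (cut_ok main119_ok main120_ok)) main121_ok) main122_ok) (cut_ok (cut_ok (cut_ok (cut_ok main123_ok main124_ok) (cut_ok main125_ok main126_ok)) main127_ok) main128_ok)) main129_ok)) (cut_ok main130_ok (cut_ok (cut_ok (cut_ok main131_ok (cut_ok main132_ok (cut_ok main133_ok main134_ok))) main135_ok) main136_ok))))) (cut_ok main137_ok (cut_ok main138_ok (cut_ok (cut_ok main139_ok (cut_ok main140_ok main141_ok)) main142_ok))))))) (cut_ok main143_ok (cut_ok main144_ok (cut_ok main145_ok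 (cut_ok (cut_ok main146_ok (cut_ok main147_ok (cut_ok (cut_ok main148_ok (cut_ok main149_ok main150_ok)) main151_ok))) (cut_ok main152_ok (cut_ok main153_ok (cut_ok main154_ok main155_ok))))))))

end Vale.Agent.P237.Quant.FourPoly.Neg
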