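import Vale.Agent.P237.Quant.FourTailData.PolyPos

/-!
The subdivision of the chart of `s`, part 0.
-/

namespace Vale.Agent.P237.Quant.FourPoly.Pos

/-- Subtree 0. -/
def main0 : Tree := (.cut 0 (.cut 1 (.cut 2 (.cut 0 .dir .dir) (.cut 0 .dir .dir)) .dir) .dir)

theorem main0_ok : checkTree false near nodes ((((((((⟨⟨0, 1, 1⟩, ⟨0, 16, 1⟩, ⟨-1, 1, 1⟩⟩ : Box3).half 1 false).half 1 false).half 1 false).half 1 false).half 0 false).half 1 false).half 2 false) main0 = true := by
  decide +kernel

/-- Subtree 1. -/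
def main1 : Tree := (.cut 0 (.cut 1 (.cut 2 (.cut 0 .dir .dir) .out) .dir) .dir)

theorem main1_ok : checkTree false near nodes ((((((((⟨⟨0, 1, 1⟩, ⟨0, 16, 1⟩, ⟨-1, 1, 1⟩⟩ : Box3).half 1 false).half 1 false).half 1 false).half 1 false).half 0 false).half 1 false).half 2 true) main1 = true := by
  decide +kernel

/-- Subtree 2. -/
def main2 : Tree := (.cut 2 .disc (.cut 0 .disc .dir))

theorem main2_ok : checkTree false near nodes (((((((⟨⟨0, 1, 1⟩, ⟨0, 16, 1⟩, ⟨-1, 1, 1⟩⟩ : Box3).half 1 false).half 1 false).half 1 false).half 1 false).half 0 false).half 1 true) main2 = true := by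
  decide +kernel

/-- Subtree 3. -/
def main3 : Tree := (.cut 1 (.cut 2 .dir .dir) (.cut 2 (.cut 0 .disc (.cut 1 .dir .disc)) .dir))

theorem main3_ok : checkTree false near nodes ((((((⟨⟨0, 1, 1⟩, ⟨0, 16, 1⟩, ⟨-1, 1, 1⟩⟩ : Box3).half 1 false).half 1 false).half 1 false).half 1 false).half 0 true) main3 = true := by
  decide +kernel

/-- Subtree 4. -/
def main4 : Tree := (.cut 0 .disc .dir)

theorem main4_ok : checkTree false near nodes ((((((((⟨⟨0, 1, 1⟩, ⟨0, 16, 1⟩, ⟨-1, 1, 1⟩⟩ : Box3).half 1 false).half 1 false).half 1 false).half 1 true).half 0 false).half 1 false).half 2 false) main4 = true := by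
  decide +kernel

/-- Subtree 5. -/
def main5 : Tree := (.cut 1 (.cut 2 .disc .out) (.cut 2 .disc .out))

theorem main5_ok : checkTree false near nodes (((((((((⟨⟨0, 1, 1⟩, ⟨0, 16, 1⟩, ⟨-1, 1, 1⟩⟩ : Box3).half 1 false).half 1 false).half 1 false).half 1 true).half 0 false).half 1 false).half 2 true).half 0 false) main5 = true := by
  decide +kernel

/-- Subtree 6. -/
def main6 : Tree := (.cut 1 (.cut 2 .disc .disc) (.cut 2 .disc .disc))

theorem main6_ok : checkTree false near nodes ((((((((((((⟨⟨0, 1, 1⟩, ⟨0, 16, 1⟩, ⟨-1, 1, 1⟩⟩ : Box3).half 1 false).half 1 false).half 1 false).half 1 true).half 0 false).half 1 false).half 2 true).half 0 true).half 1 false).half 2 false).half 0 false) main6 = true := by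
  decide +kernel

/-- Subtree 7. -/
def main7 : Tree := (.cut 2 (.cut 0 .disc (.cut 1 .disc (.cut 2 .disc .dir))) .disc)

theorem main7_ok : checkTree false near nodes (((((((((((((⟨⟨0, 1, 1⟩, ⟨0, 16, 1⟩, ⟨-1, 1, 1⟩⟩ : Box3).half 1 false).half 1 false).half 1 false).half 1 true).half 0 false).half 1 false).half 2 true).half 0 true).half 1 false).half 2 false).half 0 true).half 1 false) main7 = true := by
  decide +kernel

/-- Subtree 8. -/
def main8 : Tree := (.cut 2 (.cut 0 (.cut 2 .dir .dir) (.cut 2 .dir .dir)) .dir)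

theorem main8_ok : checkTree false near nodes (((((((((((((⟨⟨0, 1, 1⟩, ⟨0, 16, 1⟩, ⟨-1, 1, 1⟩⟩ : Box3).half 1 false).half 1 false).half 1 false).half 1 true).half 0 false).half 1 false).half 2 true).half 0 true).half 1 false).half 2 false).half 0 true).half 1 true) main8 = true := by
  decide +kernel

/-- Subtree 9. -/
def main9 : Tree := .disc

theorem main9_ok : checkTree false near nodes (((((((((((⟨⟨0, 1, 1⟩, ⟨0, 16, 1⟩, ⟨-1, 1, 1⟩⟩ : Box3).half 1 false).half 1 false).half 1 false).half 1 true).half 0 false).half 1 false).half 2 true).half 0 true).half 1 false).half 2 true) main9 = true := by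
  decide +kernel

/-- Subtree 10. -/
def main10 : Tree := (.cut 0
    (.cut 2 .disc .disc)
    (.cut 2 .dir (.cut 1 .dir (.cut 0 .dir (.cut 2 .dir .disc)))))

theorem main10_ok : checkTree false near nodes (((((((((((⟨⟨0, 1, 1⟩, ⟨0, 16, 1⟩, ⟨-1, 1, 1⟩⟩ : Box3).half 1 false).half 1 false).half 1 false).half 1 true).half 0 false).half 1 false).half 2 true).half 0 true).half 1 true).half 2 false) main10 = true := by
  decide +kernel

/-- Subtree 11. -/
def main11 : Tree := .disc

theorem main11_ok : checkTree false near nodes (((((((((((⟨⟨0, 1, 1⟩, ⟨0, 16, 1⟩, ⟨-1, 1, 1⟩⟩ : Box3).half 1 false).half 1 false).half 1 false).half 1 true).half 0 false).half 1 false).half 2 true).half 0 true).half 1 true).half 2 true) main11 = true := by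
  decide +kernel

/-- Subtree 12. -/
def main12 : Tree := (.cut 0
    (.env 0)
    (.cut 2
      .dir
      (.cut 0
        (.cut 1 (.cut 2 .dir (.cut 0 (.env 0) (.cut 1 .disc (.env 0)))) (.env 0))
        (.cut 1 (.cut 2 .dir (.cut 0 (.env 1) .dir)) (.env 1)))))

theorem main12_ok : checkTree false near nodes ((((((((⟨⟨0, 1, 1⟩, ⟨0, 16, 1⟩, ⟨-1, 1, 1⟩⟩ : Box3).half 1 false).half 1 false).half 1 false).half 1 true).half 0 false).half 1 true).half 2 false) main12 = true := by
  decide +kernel

/-- Subtree 13. -/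
def main13 : Tree := (.cut 0
    (.env 0)
    (.cut 2
      (.cut 0
        (.cut 1
          (.cut 2
            (.cut 0 (.env 0) (.cut 1 .disc (.env 0)))
            (.cut 0 (.env 0) (.cut 1 .disc (.env 0))))
          (.env 0))
        (.cut 1
          (.cut 2
            (.cut 0 (.env 1) (.cut 1 (.cut 2 .dir (.cut 0 (.env 2) (.env 3))) (.env 2)))
            (.cut 0
              (.env 1)
              (.cut 1
                (.cut 2 (.cut 0 (.env 2) (.env 3)) (.cut 0 (.env 2) (.env 3)))
                (.env 2))))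
          (.env 1)))
      (.cut 0 .out (.cut 1 .dir (.env 1)))))

theorem main13_ok : checkTree false near nodes ((((((((⟨⟨0, 1, 1⟩, ⟨0, 16, 1⟩, ⟨-1, 1, 1⟩⟩ : Box3).half 1 false).half 1 false).half 1 false).half 1 true).half 0 false).half 1 true).half 2 true) main13 = true := by
  decide +kernel

/-- Subtree 14. -/
def main14 : Tree := .dir

theorem main14_ok : checkTree false near nodes ((((((((⟨⟨0, 1, 1⟩, ⟨0, 16, 1⟩, ⟨-1, 1, 1⟩⟩ : Box3).half 1 false).half 1 false).half 1 false).half 1 true).half 0 true).half 1 false).half 2 false) main14 = true := by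
  decide +kernel

/-- Subtree 15. -/
def main15 : Tree := (.cut 2
    (.cut 0 (.cut 1 .disc (.cut 2 .dir .dir)) (.cut 1 .disc (.cut 2 .dir .dir)))
    .disc)

theorem main15_ok : checkTree false near nodes (((((((((((((⟨⟨0, 1, 1⟩, ⟨0, 16, 1⟩, ⟨-1, 1, 1⟩⟩ : Box3).half 1 false).half 1 false).half 1 false).half 1 true).half 0 true).half 1 false).half 2 true).half 0 false).half 1 false).half 2 false).half 0 false).half 1 false) main15 = true := by
  decide +kernel

/-- Subtree 16. -/
def main16 : Tree := (.cut 2 (.cut 0 (.cut 2 .dir .dir) (.cut 2 .dir .dir)) .dir)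

theorem main16_ok : checkTree false near nodes (((((((((((((⟨⟨0, 1, 1⟩, ⟨0, 16, 1⟩, ⟨-1, 1, 1⟩⟩ : Box3).half 1 false).half 1 false).half 1 false).half 1 true).half 0 true).half 1 false).half 2 true).half 0 false).half 1 false).half 2 false).half 0 false).half 1 true) main16 = true := by
  decide +kernel

/-- Subtree 17. -/
def main17 : Tree := (.cut 2
    (.cut 0 (.cut 1 .disc (.cut 2 .dir .dir)) (.cut 1 .disc (.cut 2 .dir .dir)))
    .disc)

theorem main17_ok : checkTree false near nodes (((((((((((((⟨⟨0, 1, 1⟩, ⟨0, 16, 1⟩, ⟨-1, 1, 1⟩⟩ : Box3).half 1 false).half 1 false).half 1 false).half 1 true).half 0 true).half 1 false).half 2 true).half 0 false).half 1 false).half 2 false).half 0 true).half 1 false) main17 = true := by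
  decide +kernel

end Vale.Agent.P237.Quant.FourPoly.Pos
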