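import Vale.Agent.P237.Quant.FourTailData.PolyPos

/-!
The subdivision of the chart of `s`, part 1.
-/

namespace Vale.Agent.P237.Quant.FourPoly.Pos

/-- Subtree 18. -/
def main18 : Tree := (.cut 2 .dir .dir)

theorem main18_ok : checkTree false near nodes (((((((((((((⟨⟨0, 1, 1⟩, ⟨0, 16, 1⟩, ⟨-1, 1, 1⟩⟩ : Box3).half 1 false).half 1 false).half 1 false).half 1 true).half 0 true).half 1 false).half 2 true).half 0 false).half 1 false).half 2 false).half 0 true).half 1 true) main18 = true := by
  decide +kernel

/-- Subtree 19. -/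
def main19 : Tree := .disc

theorem main19_ok : checkTree false near nodes (((((((((((⟨⟨0, 1, 1⟩, ⟨0, 16, 1⟩, ⟨-1, 1, 1⟩⟩ : Box3).half 1 false).half 1 false).half 1 false).half 1 true).half 0 true).half 1 false).half 2 true).half 0 false).half 1 false).half 2 true) main19 = true := by
  decide +kernel

/-- Subtree 20. -/
def main20 : Tree := (.cut 2 .dir (.cut 1 .dir (.cut 0 (.cut 2 .dir .dir) (.cut 2 .dir .dir))))

theorem main20_ok : checkTree false near nodes ((((((((((((⟨⟨0, 1, 1⟩, ⟨0, 16, 1⟩, ⟨-1, 1, 1⟩⟩ : Box3).half 1 false).half 1 false).half 1 false).half 1 true).half 0 true).half 1 false).half 2 true).half 0 false).half 1 true).half 2 false).half 0 false) main20 = true := by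
  decide +kernel

/-- Subtree 21. -/
def main21 : Tree := (.cut 2 .dir (.cut 1 .dir (.cut 0 (.cut 2 .dir .dir) .dir)))

theorem main21_ok : checkTree false near nodes ((((((((((((⟨⟨0, 1, 1⟩, ⟨0, 16, 1⟩, ⟨-1, 1, 1⟩⟩ : Box3).half 1 false).half 1 false).half 1 false).half 1 true).half 0 true).half 1 false).half 2 true).half 0 false).half 1 true).half 2 false).half 0 true) main21 = true := by
  decide +kernel

/-- Subtree 22. -/
def main22 : Tree := .disc

theorem main22_ok : checkTree false near nodes (((((((((((⟨⟨0, 1, 1⟩, ⟨0, 16, 1⟩, ⟨-1, 1, 1⟩⟩ : Box3).half 1 false).half 1 false).half 1 false).half 1 true).half 0 true).half 1 false).half 2 true).half 0 false).half 1 true).half 2 true) main22 = true := by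
  decide +kernel

/-- Subtree 23. -/
def main23 : Tree := (.cut 1 (.cut 2 .disc .disc) (.cut 2 .dir .dir))

theorem main23_ok : checkTree false near nodes (((((((((((((((⟨⟨0, 1, 1⟩, ⟨0, 16, 1⟩, ⟨-1, 1, 1⟩⟩ : Box3).half 1 false).half 1 false).half 1 false).half 1 true).half 0 true).half 1 false).half 2 true).half 0 true).half 1 false).half 2 false).half 0 false).half 1 false).half 2 false).half 0 false) main23 = true := by
  decide +kernel

/-- Subtree 24. -/
def main24 : Tree := (.cut 2
    (.cut 0 (.cut 1 .disc (.cut 2 .dir .disc)) (.cut 1 .disc (.cut 2 .dir .dir)))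
    .disc)

theorem main24_ok : checkTree false near nodes ((((((((((((((((⟨⟨0, 1, 1⟩, ⟨0, 16, 1⟩, ⟨-1, 1, 1⟩⟩ : Box3).half 1 false).half 1 false).half 1 false).half 1 true).half 0 true).half 1 false).half 2 true).half 0 true).half 1 false).half 2 false).half 0 false).half 1 false).half 2 false).half 0 true).half 1 false) main24 = true := by
  decide +kernel

/-- Subtree 25. -/
def main25 : Tree := (.cut 2 .dir .dir)

theorem main25_ok : checkTree false near nodes ((((((((((((((((⟨⟨0, 1, 1⟩, ⟨0, 16, 1⟩, ⟨-1, 1, 1⟩⟩ : Box3).half 1 false).half 1 false).half 1 false).half 1 true).half 0 true).half 1 false).half 2 true).half 0 true).half 1 false).half 2 false).half 0 false).half 1 false).half 2 false).half 0 true).half 1 true) main25 = true := by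
  decide +kernel

/-- Subtree 26. -/
def main26 : Tree := .disc

theorem main26_ok : checkTree false near nodes ((((((((((((((⟨⟨0, 1, 1⟩, ⟨0, 16, 1⟩, ⟨-1, 1, 1⟩⟩ : Box3).half 1 false).half 1 false).half 1 false).half 1 true).half 0 true).half 1 false).half 2 true).half 0 true).half 1 false).half 2 false).half 0 false).half 1 false).half 2 true) main26 = true := by
  decide +kernel

/-- Subtree 27. -/
def main27 : Tree := (.cut 2 (.cut 0 (.cut 2 .dir .dir) (.cut 2 .dir .dir)) .dir)

theorem main27_ok : checkTree false near nodes (((((((((((((⟨⟨0, 1, 1⟩, ⟨0, 16, 1⟩, ⟨-1, 1, 1⟩⟩ : Box3).half 1 false).half 1 false).half 1 false).half 1 true).half 0 true).half 1 false).half 2 true).half 0 true).half 1 false).half 2 false).half 0 false).half 1 true) main27 = true := by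
  decide +kernel

/-- Subtree 28. -/
def main28 : Tree := (.cut 2
    (.cut 0 (.cut 1 .disc (.cut 2 .dir .dir)) (.cut 1 .disc (.cut 2 .dir .dir)))
    .disc)

theorem main28_ok : checkTree false near nodes ((((((((((((((((⟨⟨0, 1, 1⟩, ⟨0, 16, 1⟩, ⟨-1, 1, 1⟩⟩ : Box3).half 1 false).half 1 false).half 1 false).half 1 true).half 0 true).half 1 false).half 2 true).half 0 true).half 1 false).half 2 false).half 0 true).half 1 false).half 2 false).half 0 false).half 1 false) main28 = true := by
  decide +kernel

/-- Subtree 29. -/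
def main29 : Tree := (.cut 2 .dir .dir)

theorem main29_ok : checkTree false near nodes ((((((((((((((((⟨⟨0, 1, 1⟩, ⟨0, 16, 1⟩, ⟨-1, 1, 1⟩⟩ : Box3).half 1 false).half 1 false).half 1 false).half 1 true).half 0 true).half 1 false).half 2 true).half 0 true).half 1 false).half 2 false).half 0 true).half 1 false).half 2 false).half 0 false).half 1 true) main29 = true := by
  decide +kernel

/-- Subtree 30. -/
def main30 : Tree := (.cut 1 .disc (.cut 2 .dir .dir))

theorem main30_ok : checkTree false near nodes ((((((((((((((((((⟨⟨0, 1, 1⟩, ⟨0, 16, 1⟩, ⟨-1, 1, 1⟩⟩ : Box3).half 1 false).half 1 false).half 1 false).half 1 true).half 0 true).half 1 false).half 2 true).half 0 true).half 1 false).half 2 false).half 0 true).half 1 false).half 2 false).half 0 true).half 1 false).half 2 false).half 0 false) main30 = true := by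
  decide +kernel

/-- Subtree 31. -/
def main31 : Tree := (.cut 1 .disc (.cut 2 .dir (.cut 0 .dir (.cut 2 .dir .disc))))

theorem main31_ok : checkTree false near nodes ((((((((((((((((((⟨⟨0, 1, 1⟩, ⟨0, 16, 1⟩, ⟨-1, 1, 1⟩⟩ : Box3).half 1 false).half 1 false).half 1 false).half 1 true).half 0 true).half 1 false).half 2 true).half 0 true).half 1 false).half 2 false).half 0 true).half 1 false).half 2 false).half 0 true).half 1 false).half 2 false).half 0 true) main31 = true := by
  decide +kernel

/-- Subtree 32. -/
def main32 : Tree := .disc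

theorem main32_ok : checkTree false near nodes (((((((((((((((((⟨⟨0, 1, 1⟩, ⟨0, 16, 1⟩, ⟨-1, 1, 1⟩⟩ : Box3).half 1 false).half 1 false).half 1 false).half 1 true).half 0 true).half 1 false).half 2 true).half 0 true).half 1 false).half 2 false).half 0 true).half 1 false).half 2 false).half 0 true).half 1 false).half 2 true) main32 = true := by
  decide +kernel

/-- Subtree 33. -/
def main33 : Tree := (.cut 2
    (.cut 0 (.cut 2 .dir .dir) (.cut 2 .dir .dir))
    (.cut 0 .dir (.cut 2 .dir .disc)))

theorem main33_ok : checkTree false near nodes ((((((((((((((((⟨⟨0, 1, 1⟩, ⟨0, 16, 1⟩, ⟨-1, 1, 1⟩⟩ : Box3).half 1 false).half 1 false).half 1 false).half 1 true).half 0 true).half 1 false).half 2 true).half 0 true).half 1 false).half 2 false).half 0 true).half 1 false).half 2 false).half 0 true).half 1 true) main33 = true := by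
  decide +kernel

/-- Subtree 34. -/
def main34 : Tree := .disc

theorem main34_ok : checkTree false near nodes ((((((((((((((⟨⟨0, 1, 1⟩, ⟨0, 16, 1⟩, ⟨-1, 1, 1⟩⟩ : Box3).half 1 false).half 1 false).half 1 false).half 1 true).half 0 true).half 1 false).half 2 true).half 0 true).half 1 false).half 2 false).half 0 true).half 1 false).half 2 true) main34 = true := by
  decide +kernel

/-- Subtree 35. -/
def main35 : Tree := (.cut 2
    (.cut 0
      (.cut 2 .dir .dir)
      (.cut 2 .dir (.cut 1 (.cut 0 .dir (.cut 2 .dir .dir)) .dir)))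
    .dir)

theorem main35_ok : checkTree false near nodes (((((((((((((⟨⟨0, 1, 1⟩, ⟨0, 16, 1⟩, ⟨-1, 1, 1⟩⟩ : Box3).half 1 false).half 1 false).half 1 false).half 1 true).half 0 true).half 1 false).half 2 true).half 0 true).half 1 false).half 2 false).half 0 true).half 1 true) main35 = true := by
  decide +kernel

/-- Subtree 36. -/
def main36 : Tree := .disc

theorem main36_ok : checkTree false near nodes (((((((((((⟨⟨0, 1, 1⟩, ⟨0, 16, 1⟩, ⟨-1, 1, 1⟩⟩ : Box3).half 1 false).half 1 false).half 1 false).half 1 true).half 0 true).half 1 false).half 2 true).half 0 true).half 1 false).half 2 true) main36 = true := by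
  decide +kernel

/-- Subtree 37. -/
def main37 : Tree := (.cut 2
    (.cut 0
      (.cut 2 .dir .dir)
      (.cut 2 .dir (.cut 1 .dir (.cut 0 .dir (.cut 2 .dir .disc)))))
    .disc)

theorem main37_ok : checkTree false near nodes ((((((((((⟨⟨0, 1, 1⟩, ⟨0, 16, 1⟩, ⟨-1, 1, 1⟩⟩ : Box3).half 1 false).half 1 false).half 1 false).half 1 true).half 0 true).half 1 false).half 2 true).half 0 true).half 1 true) main37 = true := by
  decide +kernel

end Vale.Agent.P237.Quant.FourPoly.Pos
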