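import Vale.Agent.P237.Quant.FourTailData.PolyPos

/-!
The subdivision of the chart of `s`, part 2.
-/

namespace Vale.Agent.P237.Quant.FourPoly.Pos

/-- Subtree 38. -/
def main38 : Tree := (.cut 0
    (.cut 2 .dir (.cut 0 (.cut 1 .dir (.cut 2 .dir (.cut 0 (.env 3) (.env 5)))) .dir))
    .dir)

theorem main38_ok : checkTree false near nodes ((((((((⟨⟨0, 1, 1⟩, ⟨0, 16, 1⟩, ⟨-1, 1, 1⟩⟩ : Box3).half 1 false).half 1 false).half 1 false).half 1 true).half 0 true).half 1 true).half 2 false) main38 = true := by
  decide +kernel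

/-- Subtree 39. -/
def main39 : Tree := (.cut 1
    (.cut 2
      (.cut 0 (.cut 1 .dir (.env 3)) .dir)
      (.cut 0
        (.cut 1 (.cut 2 (.cut 0 (.env 3) (.env 4)) (.cut 0 (.env 3) (.env 4))) (.env 3))
        (.cut 1 (.cut 2 (.cut 0 (.env 5) (.env 6)) (.cut 0 (.env 5) (.env 6))) (.env 5))))
    (.cut 2 (.cut 0 (.env 3) (.env 5)) (.cut 0 (.env 3) (.env 5))))

theorem main39_ok : checkTree false near nodes (((((((((((⟨⟨0, 1, 1⟩, ⟨0, 16, 1⟩, ⟨-1, 1, 1⟩⟩ : Box3).half 1 false).half 1 false).half 1 false).half 1 true).half 0 true).half 1 true).half 2 true).half 0 false).half 2 false).half 0 false) main39 = true := by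
  decide +kernel

/-- Subtree 40. -/
def main40 : Tree := .dir

theorem main40_ok : checkTree false near nodes (((((((((((((⟨⟨0, 1, 1⟩, ⟨0, 16, 1⟩, ⟨-1, 1, 1⟩⟩ : Box3).half 1 false).half 1 false).half 1 false).half 1 true).half 0 true).half 1 true).half 2 true).half 0 false).half 2 false).half 0 true).half 1 false).half 2 false) main40 = true := by
  decide +kernel

/-- Subtree 41. -/
def main41 : Tree := (.cut 1
    (.cut 2 .dir (.cut 0 (.cut 1 .dir (.cut 2 (.cut 0 (.env 7) .dir) .dir)) .dir))
    (.cut 2
      (.cut 0 (.env 7) (.cut 1 .dir (.env 8)))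
      (.cut 0 (.env 7) (.cut 1 (.cut 2 (.cut 0 (.env 8) .dir) .dir) (.env 8)))))

theorem main41_ok : checkTree false near nodes ((((((((((((((⟨⟨0, 1, 1⟩, ⟨0, 16, 1⟩, ⟨-1, 1, 1⟩⟩ : Box3).half 1 false).half 1 false).half 1 false).half 1 true).half 0 true).half 1 true).half 2 true).half 0 false).half 2 false).half 0 true).half 1 false).half 2 true).half 0 false) main41 = true := by
  decide +kernel

/-- Subtree 42. -/
def main42 : Tree := (.cut 1 .dir (.cut 2 .dir .dir))

theorem main42_ok : checkTree false near nodes ((((((((((((((⟨⟨0, 1, 1⟩, ⟨0, 16, 1⟩, ⟨-1, 1, 1⟩⟩ : Box3).half 1 false).half 1 false).half 1 false).half 1 true).half 0 true).half 1 true).half 2 true).half 0 false).half 2 false).half 0 true).half 1 false).half 2 true).half 0 true) main42 = true := by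
  decide +kernel

/-- Subtree 43. -/
def main43 : Tree := (.cut 0 (.env 7) .dir)

theorem main43_ok : checkTree false near nodes (((((((((((((⟨⟨0, 1, 1⟩, ⟨0, 16, 1⟩, ⟨-1, 1, 1⟩⟩ : Box3).half 1 false).half 1 false).half 1 false).half 1 true).half 0 true).half 1 true).half 2 true).half 0 false).half 2 false).half 0 true).half 1 true).half 2 false) main43 = true := by
  decide +kernel

/-- Subtree 44. -/
def main44 : Tree := (.env 7)

theorem main44_ok : checkTree false near nodes ((((((((((((((⟨⟨0, 1, 1⟩, ⟨0, 16, 1⟩, ⟨-1, 1, 1⟩⟩ : Box3).half 1 false).half 1 false).half 1 false).half 1 true).half 0 true).half 1 true).half 2 true).half 0 false).half 2 false).half 0 true).half 1 true).half 2 true).half 0 false) main44 = true := by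
  decide +kernel

/-- Subtree 45. -/
def main45 : Tree := (.cut 0 (.cut 1 .dir (.cut 2 .dir (.cut 0 (.env 9) .dir))) .dir)

theorem main45_ok : checkTree false near nodes ((((((((((((((((⟨⟨0, 1, 1⟩, ⟨0, 16, 1⟩, ⟨-1, 1, 1⟩⟩ : Box3).half 1 false).half 1 false).half 1 false).half 1 true).half 0 true).half 1 true).half 2 true).half 0 false).half 2 false).half 0 true).half 1 true).half 2 true).half 0 true).half 1 false).half 2 false) main45 = true := by
  decide +kernel

/-- Subtree 46. -/
def main46 : Tree := (.cut 0
    (.cut 1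
      (.cut 2 (.cut 0 (.env 9) .dir) (.cut 0 (.env 9) .dir))
      (.cut 2
        (.cut 0 (.env 9) (.cut 1 .dir (.env 9)))
        (.cut 0 (.env 9) (.cut 1 .dir (.env 9)))))
    .dir)

theorem main46_ok : checkTree false near nodes ((((((((((((((((⟨⟨0, 1, 1⟩, ⟨0, 16, 1⟩, ⟨-1, 1, 1⟩⟩ : Box3).half 1 false).half 1 false).half 1 false).half 1 true).half 0 true).half 1 true).half 2 true).half 0 false).half 2 false).half 0 true).half 1 true).half 2 true).half 0 true).half 1 false).half 2 true) main46 = true := by
  decide +kernel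

/-- Subtree 47. -/
def main47 : Tree := (.cut 2
    (.cut 0 (.env 9) .dir)
    (.cut 0
      (.env 9)
      (.cut 1
        (.cut 2 .dir .dir)
        (.cut 2 (.cut 0 (.env 10) .dir) (.cut 0 (.env 10) .dir)))))

theorem main47_ok : checkTree false near nodes (((((((((((((((⟨⟨0, 1, 1⟩, ⟨0, 16, 1⟩, ⟨-1, 1, 1⟩⟩ : Box3).half 1 false).half 1 false).half 1 false).half 1 true).half 0 true).half 1 true).half 2 true).half 0 false).half 2 false).half 0 true).half 1 true).half 2 true).half 0 true).half 1 true) main47 = true := by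
  decide +kernel

/-- Subtree 48. -/
def main48 : Tree := (.cut 0
    (.cut 1 .disc (.cut 2 (.cut 0 (.env 3) (.env 5)) .out))
    (.cut 1
      .disc
      (.cut 2
        (.cut 0 (.env 7) (.cut 1 .dir (.cut 2 (.cut 0 (.env 9) .dir) .disc)))
        .disc)))

theorem main48_ok : checkTree false near nodes ((((((((((⟨⟨0, 1, 1⟩, ⟨0, 16, 1⟩, ⟨-1, 1, 1⟩⟩ : Box3).half 1 false).half 1 false).half 1 false).half 1 true).half 0 true).half 1 true).half 2 true).half 0 false).half 2 true) main48 = true := by
  decide +kernel

/-- Subtree 49. -/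
def main49 : Tree := (.cut 1 (.cut 2 .dir .dir) (.cut 2 .dir .dir))

theorem main49_ok : checkTree false near nodes (((((((((((⟨⟨0, 1, 1⟩, ⟨0, 16, 1⟩, ⟨-1, 1, 1⟩⟩ : Box3).half 1 false).half 1 false).half 1 false).half 1 true).half 0 true).half 1 true).half 2 true).half 0 true).half 2 false).half 0 false) main49 = true := by
  decide +kernel

/-- Subtree 50. -/
def main50 : Tree := (.cut 2 .dir (.cut 0 .dir (.cut 1 (.cut 2 .dir .dir) (.cut 2 .dir .dir))))

theorem main50_ok : checkTree false near nodes ((((((((((((⟨⟨0, 1, 1⟩, ⟨0, 16, 1⟩, ⟨-1, 1, 1⟩⟩ : Box3).half 1 false).half 1 false).half 1 false).half 1 true).half 0 true).half 1 true).half 2 true).half 0 true).half 2 false).half 0 true).half 1 false) main50 = true := by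
  decide +kernel

/-- Subtree 51. -/
def main51 : Tree := (.cut 2 .dir (.cut 0 .dir (.cut 1 (.cut 2 .dir .dir) (.cut 2 .dir .dir))))

theorem main51_ok : checkTree false near nodes ((((((((((((⟨⟨0, 1, 1⟩, ⟨0, 16, 1⟩, ⟨-1, 1, 1⟩⟩ : Box3).half 1 false).half 1 false).half 1 false).half 1 true).half 0 true).half 1 true).half 2 true).half 0 true).half 2 false).half 0 true).half 1 true) main51 = true := by
  decide +kernel

/-- Subtree 52. -/
def main52 : Tree := .dir

theorem main52_ok : checkTree false near nodes ((((((((((⟨⟨0, 1, 1⟩, ⟨0, 16, 1⟩, ⟨-1, 1, 1⟩⟩ : Box3).half 1 false).half 1 false).half 1 false).half 1 true).half 0 true).half 1 true).half 2 true).half 0 true).half 2 true) main52 = true := by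
  decide +kernel

/-- Subtree 53. -/
def main53 : Tree := (.cut 1
    (.cut 2
      (.cut 0
        (.env 0)
        (.cut 1 (.cut 2 (.cut 0 (.env 0) (.env 1)) (.cut 0 (.env 0) (.env 1))) (.env 0)))
      (.cut 0
        (.env 0)
        (.cut 1 (.cut 2 (.cut 0 (.env 0) (.env 1)) (.cut 0 .out (.env 1))) (.env 0))))
    (.env 0))

theorem main53_ok : checkTree false near nodes (((((⟨⟨0, 1, 1⟩, ⟨0, 16, 1⟩, ⟨-1, 1, 1⟩⟩ : Box3).half 1 false).half 1 false).half 1 true).half 0 false) main53 = true := by
  decide +kernel

/-- Subtree 54. -/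
def main54 : Tree := (.cut 0
    (.cut 1
      (.cut 2 (.cut 0 (.env 3) .dir) (.cut 0 (.env 3) (.cut 1 .dir (.env 7))))
      (.cut 2 (.cut 0 (.env 3) (.env 7)) (.cut 0 (.env 3) (.env 7))))
    .dir)

theorem main54_ok : checkTree false near nodes (((((((⟨⟨0, 1, 1⟩, ⟨0, 16, 1⟩, ⟨-1, 1, 1⟩⟩ : Box3).half 1 false).half 1 false).half 1 true).half 0 true).half 1 false).half 2 false) main54 = true := by
  decide +kernel

/-- Subtree 55. -/
def main55 : Tree := (.cut 0
    (.env 3)
    (.cut 1
      (.cut 2
        (.cut 0 (.env 7) .dir)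
        (.cut 0
          (.env 7)
          (.cut 1
            (.cut 2
              (.cut 0 (.env 9) (.cut 1 .dir (.env 10)))
              (.cut 0
                (.env 9)
                (.cut 1
                  (.cut 2
                    (.cut 0
                      (.env 10)
                      (.cut 1 .dir (.cut 2 .dir (.cut 0 (.env 10) (.env 11)))))
                    (.cut 0
                      (.env 10)
                      (.cut 1
                        .dir
                        (.cut 2
                          (.cut 0 (.env 10) (.env 11))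
                          (.cut 0 (.env 10) (.env 11))))))
                  (.env 10))))
            (.env 9))))
      (.env 7)))

theorem main55_ok : checkTree false near nodes ((((((((((⟨⟨0, 1, 1⟩, ⟨0, 16, 1⟩, ⟨-1, 1, 1⟩⟩ : Box3).half 1 false).half 1 false).half 1 true).half 0 true).half 1 false).half 2 true).half 0 false).half 1 false).half 2 false) main55 = true := by
  decide +kernel

/-- Subtree 56. -/
def main56 : Tree := (.cut 0
    (.env 3)
    (.cut 1
      (.cut 2
        (.cut 0
          (.env 7)
          (.cut 1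
            (.cut 2
              (.cut 0 (.env 9) (.cut 1 (.cut 2 (.cut 0 (.env 10) .dir) .disc) (.env 10)))
              .disc)
            (.env 9)))
        .dir)
      (.env 7)))

theorem main56_ok : checkTree false near nodes ((((((((((⟨⟨0, 1, 1⟩, ⟨0, 16, 1⟩, ⟨-1, 1, 1⟩⟩ : Box3).half 1 false).half 1 false).half 1 true).half 0 true).half 1 false).half 2 true).half 0 false).half 1 false).half 2 true) main56 = true := by
  decide +kernel

/-- Subtree 57. -/
def main57 : Tree := (.cut 2 (.cut 0 (.env 3) (.env 7)) (.cut 0 (.env 3) (.env 7)))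

theorem main57_ok : checkTree false near nodes (((((((((⟨⟨0, 1, 1⟩, ⟨0, 16, 1⟩, ⟨-1, 1, 1⟩⟩ : Box3).half 1 false).half 1 false).half 1 true).half 0 true).half 1 false).half 2 true).half 0 false).half 1 true) main57 = true := by
  decide +kernel

/-- Subtree 58. -/
def main58 : Tree := .dir

theorem main58_ok : checkTree false near nodes (((((((((((((⟨⟨0, 1, 1⟩, ⟨0, 16, 1⟩, ⟨-1, 1, 1⟩⟩ : Box3).half 1 false).half 1 false).half 1 true).half 0 true).half 1 false).half 2 true).half 0 true).half 1 false).half 2 false).half 0 false).half 1 false).half 2 false) main58 = true := by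
  decide +kernel

/-- Subtree 59. -/
def main59 : Tree := (.cut 2 .dir (.cut 0 (.cut 1 .dir (.cut 2 .dir .dir)) .dir))

theorem main59_ok : checkTree false near nodes (((((((((((((((⟨⟨0, 1, 1⟩, ⟨0, 16, 1⟩, ⟨-1, 1, 1⟩⟩ : Box3).half 1 false).half 1 false).half 1 true).half 0 true).half 1 false).half 2 true).half 0 true).half 1 false).half 2 false).half 0 false).half 1 false).half 2 true).half 0 false).half 1 false) main59 = true := by
  decide +kernel

/-- Subtree 60. -/
def main60 : Tree := .dir

theorem main60_ok : checkTree false near nodes ((((((((((((((((⟨⟨0, 1, 1⟩, ⟨0, 16, 1⟩, ⟨-1, 1, 1⟩⟩ : Box3).half 1 false).half 1 false).half 1 true).half 0 true).half 1 false).half 2 true).half 0 true).half 1 false).half 2 false).half 0 false).half 1 false).half 2 true).half 0 false).half 1 true).half 2 false) main60 = true := by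
  decide +kernel

/-- Subtree 61. -/
def main61 : Tree := (.cut 2
    (.cut 1 (.cut 0 (.cut 2 .dir (.cut 1 .dir (.env 11))) .dir) (.cut 0 (.env 11) .dir))
    (.cut 1
      (.cut 0
        (.cut 2
          (.cut 1 (.cut 0 (.env 11) .dir) (.env 11))
          (.cut 1 (.cut 0 (.env 11) .dir) (.env 11)))
        .dir)
      (.cut 0 (.env 11) .dir)))

theorem main61_ok : checkTree false near nodes (((((((((((((((((⟨⟨0, 1, 1⟩, ⟨0, 16, 1⟩, ⟨-1, 1, 1⟩⟩ : Box3).half 1 false).half 1 false).half 1 true).half 0 true).half 1 false).half 2 true).half 0 true).half 1 false).half 2 false).half 0 false).half 1 false).half 2 true).half 0 false).half 1 true).half 2 true).half 0 false) main61 = true := by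
  decide +kernel

/-- Subtree 62. -/
def main62 : Tree := .dir

theorem main62_ok : checkTree false near nodes (((((((((((((((((⟨⟨0, 1, 1⟩, ⟨0, 16, 1⟩, ⟨-1, 1, 1⟩⟩ : Box3).half 1 false).half 1 false).half 1 true).half 0 true).half 1 false).half 2 true).half 0 true).half 1 false).half 2 false).half 0 false).half 1 false).half 2 true).half 0 false).half 1 true).half 2 true).half 0 true) main62 = true := by
  decide +kernel

/-- Subtree 63. -/
def main63 : Tree := .dir

theorem main63_ok : checkTree false near nodes ((((((((((((((⟨⟨0, 1, 1⟩, ⟨0, 16, 1⟩, ⟨-1, 1, 1⟩⟩ : Box3).half 1 false).half 1 false).half 1 true).half 0 true).half 1 false).half 2 true).half 0 true).half 1 false).half 2 false).half 0 false).half 1 false).half 2 true).half 0 true) main63 = true := by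
  decide +kernel

/-- Subtree 64. -/
def main64 : Tree := .dir

theorem main64_ok : checkTree false near nodes (((((((((((((⟨⟨0, 1, 1⟩, ⟨0, 16, 1⟩, ⟨-1, 1, 1⟩⟩ : Box3).half 1 false).half 1 false).half 1 true).half 0 true).half 1 false).half 2 true).half 0 true).half 1 false).half 2 false).half 0 false).half 1 true).half 2 false) main64 = true := by
  decide +kernel

end Vale.Agent.P237.Quant.FourPoly.Pos
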