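import Vale.Agent.P237.Quant.FourTailData.PolyPos

/-!
The subdivision of the chart of `s`, part 3.
-/

namespace Vale.Agent.P237.Quant.FourPoly.Pos

/-- Subtree 65. -/
def main65 : Tree := (.cut 1 (.cut 0 (.cut 2 .dir (.cut 1 .dir (.env 11))) .dir) (.cut 0 (.env 11) .dir))

theorem main65_ok : checkTree false near nodes (((((((((((((((⟨⟨0, 1, 1⟩, ⟨0, 16, 1⟩, ⟨-1, 1, 1⟩⟩ : Box3).half 1 false).half 1 false).half 1 true).half 0 true).half 1 false).half 2 true).half 0 true).half 1 false).half 2 false).half 0 false).half 1 true).half 2 true).half 0 false).half 2 false) main65 = true := by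
  decide +kernel

/-- Subtree 66. -/
def main66 : Tree := (.cut 0
    (.cut 2
      (.cut 1 (.cut 0 (.env 11) (.cut 2 .dir (.cut 1 .dir (.env 12)))) (.env 11))
      (.cut 1
        (.cut 0
          (.env 11)
          (.cut 2
            (.cut 1 (.cut 0 (.env 12) .dir) (.env 12))
            (.cut 1 (.cut 0 (.env 12) .dir) (.env 12))))
        (.env 11)))
    .dir)

theorem main66_ok : checkTree false near nodes ((((((((((((((((⟨⟨0, 1, 1⟩, ⟨0, 16, 1⟩, ⟨-1, 1, 1⟩⟩ : Box3).half 1 false).half 1 false).half 1 true).half 0 true).half 1 false).half 2 true).half 0 true).half 1 false).half 2 false).half 0 false).half 1 true).half 2 true).half 0 false).half 2 true).half 1 false) main66 = true := by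
  decide +kernel

/-- Subtree 67. -/
def main67 : Tree := (.cut 0
    (.env 11)
    (.cut 2
      (.cut 0 (.cut 1 .dir (.cut 2 .dir (.cut 0 (.env 12) (.env 13)))) .dir)
      (.cut 0
        (.cut 1
          (.cut 2 (.cut 0 (.env 12) .dir) (.cut 0 (.env 12) .dir))
          (.cut 2 (.cut 0 (.env 12) (.env 13)) (.cut 0 (.env 12) (.env 13))))
        .dir)))

theorem main67_ok : checkTree false near nodes ((((((((((((((((⟨⟨0, 1, 1⟩, ⟨0, 16, 1⟩, ⟨-1, 1, 1⟩⟩ : Box3).half 1 false).half 1 false).half 1 true).half 0 true).half 1 false).half 2 true).half 0 true).half 1 false).half 2 false).half 0 false).half 1 true).half 2 true).half 0 false).half 2 true).half 1 true) main67 = true := by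
  decide +kernel

/-- Subtree 68. -/
def main68 : Tree := .dir

theorem main68_ok : checkTree false near nodes ((((((((((((((⟨⟨0, 1, 1⟩, ⟨0, 16, 1⟩, ⟨-1, 1, 1⟩⟩ : Box3).half 1 false).half 1 false).half 1 true).half 0 true).half 1 false).half 2 true).half 0 true).half 1 false).half 2 false).half 0 false).half 1 true).half 2 true).half 0 true) main68 = true := by
  decide +kernel

/-- Subtree 69. -/
def main69 : Tree := (.cut 1
    (.cut 2 .dir (.cut 0 .dir (.cut 1 (.cut 2 .dir .dir) .dir)))
    (.cut 2 .dir .dir))

theorem main69_ok : checkTree false near nodes (((((((((((⟨⟨0, 1, 1⟩, ⟨0, 16, 1⟩, ⟨-1, 1, 1⟩⟩ : Box3).half 1 false).half 1 false).half 1 true).half 0 true).half 1 false).half 2 true).half 0 true).half 1 false).half 2 false).half 0 true) main69 = true := by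
  decide +kernel

/-- Subtree 70. -/
def main70 : Tree := (.cut 0
    (.cut 1
      .dir
      (.cut 2 (.cut 0 (.cut 2 (.cut 1 .dir (.cut 0 (.env 11) .dir)) .dir) .dir) .disc))
    .dir)

theorem main70_ok : checkTree false near nodes (((((((((((((⟨⟨0, 1, 1⟩, ⟨0, 16, 1⟩, ⟨-1, 1, 1⟩⟩ : Box3).half 1 false).half 1 false).half 1 true).half 0 true).half 1 false).half 2 true).half 0 true).half 1 false).half 2 true).half 0 false).half 1 false).half 2 false) main70 = true := by
  decide +kernel

/-- Subtree 71. -/
def main71 : Tree := .disc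

theorem main71_ok : checkTree false near nodes (((((((((((((⟨⟨0, 1, 1⟩, ⟨0, 16, 1⟩, ⟨-1, 1, 1⟩⟩ : Box3).half 1 false).half 1 false).half 1 true).half 0 true).half 1 false).half 2 true).half 0 true).half 1 false).half 2 true).half 0 false).half 1 false).half 2 true) main71 = true := by
  decide +kernel

/-- Subtree 72. -/
def main72 : Tree := (.cut 1
    (.cut 0
      (.cut 2
        (.cut 1 (.cut 0 (.env 11) (.cut 2 (.cut 1 .dir (.env 12)) .dir)) (.env 11))
        (.cut 1 .dir (.env 11)))
      .dir)
    (.cut 0
      (.env 11)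
      (.cut 2
        (.cut 0 (.cut 1 .dir (.cut 2 (.cut 0 (.env 12) (.env 13)) .dir)) .dir)
        .dir)))

theorem main72_ok : checkTree false near nodes (((((((((((((((⟨⟨0, 1, 1⟩, ⟨0, 16, 1⟩, ⟨-1, 1, 1⟩⟩ : Box3).half 1 false).half 1 false).half 1 true).half 0 true).half 1 false).half 2 true).half 0 true).half 1 false).half 2 true).half 0 false).half 1 true).half 2 false).half 0 false).half 2 false) main72 = true := by
  decide +kernel

/-- Subtree 73. -/
def main73 : Tree := .disc

theorem main73_ok : checkTree false near nodes (((((((((((((((⟨⟨0, 1, 1⟩, ⟨0, 16, 1⟩, ⟨-1, 1, 1⟩⟩ : Box3).half 1 false).half 1 false).half 1 true).half 0 true).half 1 false).half 2 true).half 0 true).half 1 false).half 2 true).half 0 false).half 1 true).half 2 false).half 0 false).half 2 true) main73 = true := by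
  decide +kernel

/-- Subtree 74. -/
def main74 : Tree := .dir

theorem main74_ok : checkTree false near nodes ((((((((((((((⟨⟨0, 1, 1⟩, ⟨0, 16, 1⟩, ⟨-1, 1, 1⟩⟩ : Box3).half 1 false).half 1 false).half 1 true).half 0 true).half 1 false).half 2 true).half 0 true).half 1 false).half 2 true).half 0 false).half 1 true).half 2 false).half 0 true) main74 = true := by
  decide +kernel

/-- Subtree 75. -/
def main75 : Tree := .disc

theorem main75_ok : checkTree false near nodes (((((((((((((⟨⟨0, 1, 1⟩, ⟨0, 16, 1⟩, ⟨-1, 1, 1⟩⟩ : Box3).half 1 false).half 1 false).half 1 true).half 0 true).half 1 false).half 2 true).half 0 true).half 1 false).half 2 true).half 0 false).half 1 true).half 2 true) main75 = true := by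
  decide +kernel

/-- Subtree 76. -/
def main76 : Tree := .dir

theorem main76_ok : checkTree false near nodes (((((((((((⟨⟨0, 1, 1⟩, ⟨0, 16, 1⟩, ⟨-1, 1, 1⟩⟩ : Box3).half 1 false).half 1 false).half 1 true).half 0 true).half 1 false).half 2 true).half 0 true).half 1 false).half 2 true).half 0 true) main76 = true := by
  decide +kernel

/-- Subtree 77. -/
def main77 : Tree := .dir

theorem main77_ok : checkTree false near nodes ((((((((((((⟨⟨0, 1, 1⟩, ⟨0, 16, 1⟩, ⟨-1, 1, 1⟩⟩ : Box3).half 1 false).half 1 false).half 1 true).half 0 true).half 1 false).half 2 true).half 0 true).half 1 true).half 2 false).half 0 false).half 2 false) main77 = true := by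
  decide +kernel

/-- Subtree 78. -/
def main78 : Tree := (.cut 1
    (.cut 2
      (.cut 0 (.env 11) .dir)
      (.cut 0
        (.env 11)
        (.cut 1
          (.cut 2
            (.cut 0 (.env 12) .dir)
            (.cut 0
              (.env 12)
              (.cut 1 .dir (.cut 2 (.cut 0 (.env 13) .dir) (.cut 0 (.env 13) .dir)))))
          (.cut 2
            (.cut 0 (.env 12) (.cut 1 .dir (.env 13)))
            (.cut 0
              (.env 12)
              (.cut 1 (.cut 2 (.cut 0 (.env 13) .dir) (.cut 0 (.env 13) .dir)) (.env 13)))))))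
    (.env 11))

theorem main78_ok : checkTree false near nodes (((((((((((((⟨⟨0, 1, 1⟩, ⟨0, 16, 1⟩, ⟨-1, 1, 1⟩⟩ : Box3).half 1 false).half 1 false).half 1 true).half 0 true).half 1 false).half 2 true).half 0 true).half 1 true).half 2 false).half 0 false).half 2 true).half 0 false) main78 = true := by
  decide +kernel

/-- Subtree 79. -/
def main79 : Tree := .dir

theorem main79_ok : checkTree false near nodes ((((((((((((((⟨⟨0, 1, 1⟩, ⟨0, 16, 1⟩, ⟨-1, 1, 1⟩⟩ : Box3).half 1 false).half 1 false).half 1 true).half 0 true).half 1 false).half 2 true).half 0 true).half 1 true).half 2 false).half 0 false).half 2 true).half 0 true).half 1 false) main79 = true := by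
  decide +kernel

/-- Subtree 80. -/
def main80 : Tree := (.cut 2
    .dir
    (.cut 1
      (.cut 0 (.cut 2 .dir (.cut 1 .dir (.cut 0 (.env 14) .dir))) .dir)
      (.cut 0
        (.cut 2 (.cut 1 .dir (.env 14)) (.cut 1 (.cut 0 (.env 14) .dir) (.env 14)))
        .dir)))

theorem main80_ok : checkTree false near nodes (((((((((((((((⟨⟨0, 1, 1⟩, ⟨0, 16, 1⟩, ⟨-1, 1, 1⟩⟩ : Box3).half 1 false).half 1 false).half 1 true).half 0 true).half 1 false).half 2 true).half 0 true).half 1 true).half 2 false).half 0 false).half 2 true).half 0 true).half 1 true).half 0 false) main80 = true := by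
  decide +kernel

/-- Subtree 81. -/
def main81 : Tree := .dir

theorem main81_ok : checkTree false near nodes (((((((((((((((⟨⟨0, 1, 1⟩, ⟨0, 16, 1⟩, ⟨-1, 1, 1⟩⟩ : Box3).half 1 false).half 1 false).half 1 true).half 0 true).half 1 false).half 2 true).half 0 true).half 1 true).half 2 false).half 0 false).half 2 true).half 0 true).half 1 true).half 0 true) main81 = true := by
  decide +kernel

/-- Subtree 82. -/
def main82 : Tree := (.cut 2 .dir .dir)

theorem main82_ok : checkTree false near nodes (((((((((((⟨⟨0, 1, 1⟩, ⟨0, 16, 1⟩, ⟨-1, 1, 1⟩⟩ : Box3).half 1 false).half 1 false).half 1 true).half 0 true).half 1 false).half 2 true).half 0 true).half 1 true).half 2 false).half 0 true) main82 = true := by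
  decide +kernel

/-- Subtree 83. -/
def main83 : Tree := (.cut 1
    (.cut 2
      (.cut 0
        (.env 11)
        (.cut 1
          (.cut 2
            (.cut 0 (.env 12) (.cut 1 .dir (.cut 2 (.cut 0 (.env 13) .dir) .dir)))
            (.cut 0 (.env 12) .dir))
          (.cut 2
            (.cut 0
              (.env 12)
              (.cut 1 (.cut 2 (.cut 0 (.env 13) .dir) (.cut 0 (.env 13) .dir)) (.env 13)))
            (.cut 0 (.env 12) .dir))))
      (.cut 0 (.env 11) .dir))
    (.env 11))

theorem main83_ok : checkTree false near nodes (((((((((((((⟨⟨0, 1, 1⟩, ⟨0, 16, 1⟩, ⟨-1, 1, 1⟩⟩ : Box3).half 1 false).half 1 false).half 1 true).half 0 true).half 1 false).half 2 true).half 0 true).half 1 true).half 2 true).half 0 false).half 2 false).half 0 false) main83 = true := by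
  decide +kernel

/-- Subtree 84. -/
def main84 : Tree := .dir

theorem main84_ok : checkTree false near nodes ((((((((((((((⟨⟨0, 1, 1⟩, ⟨0, 16, 1⟩, ⟨-1, 1, 1⟩⟩ : Box3).half 1 false).half 1 false).half 1 true).half 0 true).half 1 false).half 2 true).half 0 true).half 1 true).half 2 true).half 0 false).half 2 false).half 0 true).half 1 false) main84 = true := by
  decide +kernel

/-- Subtree 85. -/
def main85 : Tree := (.cut 2
    (.cut 1
      (.cut 0 (.cut 2 (.cut 1 .dir (.cut 0 (.env 14) .dir)) .dir) .dir)
      (.cut 0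
        (.cut 2 (.cut 1 (.cut 0 (.env 14) .dir) (.env 14)) (.cut 1 .dir (.env 14)))
        .dir))
    .dir)

theorem main85_ok : checkTree false near nodes (((((((((((((((⟨⟨0, 1, 1⟩, ⟨0, 16, 1⟩, ⟨-1, 1, 1⟩⟩ : Box3).half 1 false).half 1 false).half 1 true).half 0 true).half 1 false).half 2 true).half 0 true).half 1 true).half 2 true).half 0 false).half 2 false).half 0 true).half 1 true).half 0 false) main85 = true := by
  decide +kernel

/-- Subtree 86. -/
def main86 : Tree := .dir

theorem main86_ok : checkTree false near nodes (((((((((((((((⟨⟨0, 1, 1⟩, ⟨0, 16, 1⟩, ⟨-1, 1, 1⟩⟩ : Box3).half 1 false).half 1 false).half 1 true).half 0 true).half 1 false).half 2 true).half 0 true).half 1 true).half 2 true).half 0 false).half 2 false).half 0 true).half 1 true).half 0 true) main86 = true := by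
  decide +kernel

/-- Subtree 87. -/
def main87 : Tree := .disc

theorem main87_ok : checkTree false near nodes ((((((((((((⟨⟨0, 1, 1⟩, ⟨0, 16, 1⟩, ⟨-1, 1, 1⟩⟩ : Box3).half 1 false).half 1 false).half 1 true).half 0 true).half 1 false).half 2 true).half 0 true).half 1 true).half 2 true).half 0 false).half 2 true) main87 = true := by
  decide +kernel

/-- Subtree 88. -/
def main88 : Tree := .dir

theorem main88_ok : checkTree false near nodes (((((((((((⟨⟨0, 1, 1⟩, ⟨0, 16, 1⟩, ⟨-1, 1, 1⟩⟩ : Box3).half 1 false).half 1 false).half 1 true).half 0 true).half 1 false).half 2 true).half 0 true).half 1 true).half 2 true).half 0 true) main88 = true := by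
  decide +kernel

/-- Subtree 89. -/
def main89 : Tree := (.env 3)

theorem main89_ok : checkTree false near nodes (((((((⟨⟨0, 1, 1⟩, ⟨0, 16, 1⟩, ⟨-1, 1, 1⟩⟩ : Box3).half 1 false).half 1 false).half 1 true).half 0 true).half 1 true).half 0 false) main89 = true := by
  decide +kernel

/-- Subtree 90. -/
def main90 : Tree := .dir

theorem main90_ok : checkTree false near nodes ((((((((⟨⟨0, 1, 1⟩, ⟨0, 16, 1⟩, ⟨-1, 1, 1⟩⟩ : Box3).half 1 false).half 1 false).half 1 true).half 0 true).half 1 true).half 0 true).half 2 false) main90 = true := by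
  decide +kernel

/-- Subtree 91. -/
def main91 : Tree := (.env 11)

theorem main91_ok : checkTree false near nodes ((((((((((((⟨⟨0, 1, 1⟩, ⟨0, 16, 1⟩, ⟨-1, 1, 1⟩⟩ : Box3).half 1 false).half 1 false).half 1 true).half 0 true).half 1 true).half 0 true).half 2 true).half 0 false).half 2 false).half 1 false).half 0 false) main91 = true := by
  decide +kernel

/-- Subtree 92. -/
def main92 : Tree := .dir

theorem main92_ok : checkTree false near nodes (((((((((((((⟨⟨0, 1, 1⟩, ⟨0, 16, 1⟩, ⟨-1, 1, 1⟩⟩ : Box3).half 1 false).half 1 false).half 1 true).half 0 true).half 1 true).half 0 true).half 2 true).half 0 false).half 2 false).half 1 false).half 0 true).half 2 false) main92 = true := by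
  decide +kernel

end Vale.Agent.P237.Quant.FourPoly.Pos
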