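import Vale.Agent.P237.Quant.FourTailData.PolyPos

/-!
The subdivision of the chart of `s`, part 4.
-/

namespace Vale.Agent.P237.Quant.FourPoly.Pos

/-- Subtree 93. -/
def main93 : Tree := (.cut 0
    (.cut 2
      .dir
      (.cut 1
        (.cut 0 (.env 14) (.cut 2 .dir (.cut 1 .dir (.cut 0 (.env 15) .dir))))
        (.cut 0 (.env 14) (.cut 2 .dir (.cut 1 (.cut 0 (.env 15) .dir) (.env 15))))))
    .dir)

theorem main93_ok : checkTree false near nodes ((((((((((((((⟨⟨0, 1, 1⟩, ⟨0, 16, 1⟩, ⟨-1, 1, 1⟩⟩ : Box3).half 1 false).half 1 false).half 1 true).half 0 true).half 1 true).half 0 true).half 2 true).half 0 false).half 2 false).half 1 false).half 0 true).half 2 true).half 1 false) main93 = true := by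
  decide +kernel

/-- Subtree 94. -/
def main94 : Tree := (.cut 0
    (.env 14)
    (.cut 2 .dir (.cut 1 .dir (.cut 0 (.cut 2 .dir (.cut 0 (.env 16) .dir)) .dir))))

theorem main94_ok : checkTree false near nodes ((((((((((((((⟨⟨0, 1, 1⟩, ⟨0, 16, 1⟩, ⟨-1, 1, 1⟩⟩ : Box3).half 1 false).half 1 false).half 1 true).half 0 true).half 1 true).half 0 true).half 2 true).half 0 false).half 2 false).half 1 false).half 0 true).half 2 true).half 1 true) main94 = true := by
  decide +kernel

/-- Subtree 95. -/
def main95 : Tree := (.env 11)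

theorem main95_ok : checkTree false near nodes ((((((((((((⟨⟨0, 1, 1⟩, ⟨0, 16, 1⟩, ⟨-1, 1, 1⟩⟩ : Box3).half 1 false).half 1 false).half 1 true).half 0 true).half 1 true).half 0 true).half 2 true).half 0 false).half 2 false).half 1 true).half 0 false) main95 = true := by
  decide +kernel

/-- Subtree 96. -/
def main96 : Tree := .dir

theorem main96_ok : checkTree false near nodes (((((((((((((⟨⟨0, 1, 1⟩, ⟨0, 16, 1⟩, ⟨-1, 1, 1⟩⟩ : Box3).half 1 false).half 1 false).half 1 true).half 0 true).half 1 true).half 0 true).half 2 true).half 0 false).half 2 false).half 1 true).half 0 true).half 2 false) main96 = true := by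
  decide +kernel

/-- Subtree 97. -/
def main97 : Tree := (.env 14)

theorem main97_ok : checkTree false near nodes ((((((((((((((⟨⟨0, 1, 1⟩, ⟨0, 16, 1⟩, ⟨-1, 1, 1⟩⟩ : Box3).half 1 false).half 1 false).half 1 true).half 0 true).half 1 true).half 0 true).half 2 true).half 0 false).half 2 false).half 1 true).half 0 true).half 2 true).half 0 false) main97 = true := by
  decide +kernel

/-- Subtree 98. -/
def main98 : Tree := (.cut 2
    .dir
    (.cut 0
      (.cut 1 (.cut 2 .dir (.cut 0 (.env 16) (.cut 1 .dir (.env 16)))) (.env 16))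
      .dir))

theorem main98_ok : checkTree false near nodes (((((((((((((((⟨⟨0, 1, 1⟩, ⟨0, 16, 1⟩, ⟨-1, 1, 1⟩⟩ : Box3).half 1 false).half 1 false).half 1 true).half 0 true).half 1 true).half 0 true).half 2 true).half 0 false).half 2 false).half 1 true).half 0 true).half 2 true).half 0 true).half 1 false) main98 = true := by
  decide +kernel

/-- Subtree 99. -/
def main99 : Tree := (.cut 2
    .dir
    (.cut 0
      (.env 16)
      (.cut 1
        (.cut 2 .dir (.cut 0 (.env 17) .dir))
        (.cut 2 .dir (.cut 0 (.env 17) .dir)))))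

theorem main99_ok : checkTree false near nodes (((((((((((((((⟨⟨0, 1, 1⟩, ⟨0, 16, 1⟩, ⟨-1, 1, 1⟩⟩ : Box3).half 1 false).half 1 false).half 1 true).half 0 true).half 1 true).half 0 true).half 2 true).half 0 false).half 2 false).half 1 true).half 0 true).half 2 true).half 0 true).half 1 true) main99 = true := by
  decide +kernel

/-- Subtree 100. -/
def main100 : Tree := (.env 11)

theorem main100_ok : checkTree false near nodes ((((((((((((⟨⟨0, 1, 1⟩, ⟨0, 16, 1⟩, ⟨-1, 1, 1⟩⟩ : Box3).half 1 false).half 1 false).half 1 true).half 0 true).half 1 true).half 0 true).half 2 true).half 0 false).half 2 true).half 1 false).half 0 false) main100 = true := by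
  decide +kernel

/-- Subtree 101. -/
def main101 : Tree := (.cut 0
    (.cut 2
      (.cut 1
        (.cut 0 (.env 14) (.cut 2 (.cut 1 .dir (.cut 0 (.env 15) .dir)) .dir))
        (.cut 0
          (.env 14)
          (.cut 2 (.cut 1 (.cut 0 (.env 15) .dir) (.env 15)) (.cut 1 .dir (.env 15)))))
      .dir)
    .dir)

theorem main101_ok : checkTree false near nodes ((((((((((((((⟨⟨0, 1, 1⟩, ⟨0, 16, 1⟩, ⟨-1, 1, 1⟩⟩ : Box3).half 1 false).half 1 false).half 1 true).half 0 true).half 1 true).half 0 true).half 2 true).half 0 false).half 2 true).half 1 false).half 0 true).half 2 false).half 1 false) main101 = true := by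
  decide +kernel

/-- Subtree 102. -/
def main102 : Tree := (.cut 0
    (.env 14)
    (.cut 2
      (.cut 1
        .dir
        (.cut 0 (.cut 2 (.cut 0 (.env 16) .dir) (.cut 0 (.env 16) .dir)) .dir))
      .dir))

theorem main102_ok : checkTree false near nodes ((((((((((((((⟨⟨0, 1, 1⟩, ⟨0, 16, 1⟩, ⟨-1, 1, 1⟩⟩ : Box3).half 1 false).half 1 false).half 1 true).half 0 true).half 1 true).half 0 true).half 2 true).half 0 false).half 2 true).half 1 false).half 0 true).half 2 false).half 1 true) main102 = true := by
  decide +kernel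

/-- Subtree 103. -/
def main103 : Tree := .disc

theorem main103_ok : checkTree false near nodes (((((((((((((⟨⟨0, 1, 1⟩, ⟨0, 16, 1⟩, ⟨-1, 1, 1⟩⟩ : Box3).half 1 false).half 1 false).half 1 true).half 0 true).half 1 true).half 0 true).half 2 true).half 0 false).half 2 true).half 1 false).half 0 true).half 2 true) main103 = true := by
  decide +kernel

/-- Subtree 104. -/
def main104 : Tree := (.env 11)

theorem main104_ok : checkTree false near nodes ((((((((((((⟨⟨0, 1, 1⟩, ⟨0, 16, 1⟩, ⟨-1, 1, 1⟩⟩ : Box3).half 1 false).half 1 false).half 1 true).half 0 true).half 1 true).half 0 true).half 2 true).half 0 false).half 2 true).half 1 true).half 0 false) main104 = true := by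
  decide +kernel

/-- Subtree 105. -/
def main105 : Tree := (.env 14)

theorem main105_ok : checkTree false near nodes ((((((((((((((⟨⟨0, 1, 1⟩, ⟨0, 16, 1⟩, ⟨-1, 1, 1⟩⟩ : Box3).half 1 false).half 1 false).half 1 true).half 0 true).half 1 true).half 0 true).half 2 true).half 0 false).half 2 true).half 1 true).half 0 true).half 2 false).half 0 false) main105 = true := by
  decide +kernel

/-- Subtree 106. -/
def main106 : Tree := (.cut 2
    (.cut 0
      (.cut 1
        (.cut 2 (.cut 0 (.env 16) (.cut 1 .dir (.env 16))) (.cut 0 (.env 16) .dir))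
        (.env 16))
      .dir)
    .dir)

theorem main106_ok : checkTree false near nodes (((((((((((((((⟨⟨0, 1, 1⟩, ⟨0, 16, 1⟩, ⟨-1, 1, 1⟩⟩ : Box3).half 1 false).half 1 false).half 1 true).half 0 true).half 1 true).half 0 true).half 2 true).half 0 false).half 2 true).half 1 true).half 0 true).half 2 false).half 0 true).half 1 false) main106 = true := by
  decide +kernel

/-- Subtree 107. -/
def main107 : Tree := (.cut 2
    (.cut 0
      (.env 16)
      (.cut 1
        (.cut 2 (.cut 0 (.env 17) .dir) (.cut 0 (.env 17) .dir))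
        (.cut 2 (.cut 0 (.env 17) .dir) (.cut 0 (.env 17) .dir))))
    (.cut 0 (.env 16) .dir))

theorem main107_ok : checkTree false near nodes (((((((((((((((⟨⟨0, 1, 1⟩, ⟨0, 16, 1⟩, ⟨-1, 1, 1⟩⟩ : Box3).half 1 false).half 1 false).half 1 true).half 0 true).half 1 true).half 0 true).half 2 true).half 0 false).half 2 true).half 1 true).half 0 true).half 2 false).half 0 true).half 1 true) main107 = true := by
  decide +kernel

/-- Subtree 108. -/
def main108 : Tree := .disc

theorem main108_ok : checkTree false near nodes (((((((((((((⟨⟨0, 1, 1⟩, ⟨0, 16, 1⟩, ⟨-1, 1, 1⟩⟩ : Box3).half 1 false).half 1 false).half 1 true).half 0 true).half 1 true).half 0 true).half 2 true).half 0 false).half 2 true).half 1 true).half 0 true).half 2 true) main108 = true := by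
  decide +kernel

/-- Subtree 109. -/
def main109 : Tree := (.cut 2 .dir .dir)

theorem main109_ok : checkTree false near nodes (((((((((⟨⟨0, 1, 1⟩, ⟨0, 16, 1⟩, ⟨-1, 1, 1⟩⟩ : Box3).half 1 false).half 1 false).half 1 true).half 0 true).half 1 true).half 0 true).half 2 true).half 0 true) main109 = true := by
  decide +kernel

/-- Subtree 110. -/
def main110 : Tree := (.env 0)

theorem main110_ok : checkTree false near nodes ((((⟨⟨0, 1, 1⟩, ⟨0, 16, 1⟩, ⟨-1, 1, 1⟩⟩ : Box3).half 1 false).half 1 true).half 0 false) main110 = true := by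
  decide +kernel

/-- Subtree 111. -/
def main111 : Tree := (.env 3)

theorem main111_ok : checkTree false near nodes (((((⟨⟨0, 1, 1⟩, ⟨0, 16, 1⟩, ⟨-1, 1, 1⟩⟩ : Box3).half 1 false).half 1 true).half 0 true).half 0 false) main111 = true := by
  decide +kernel

/-- Subtree 112. -/
def main112 : Tree := (.cut 0 (.cut 1 (.cut 2 .dir (.cut 0 (.env 11) .dir)) (.env 11)) .dir)

theorem main112_ok : checkTree false near nodes (((((((⟨⟨0, 1, 1⟩, ⟨0, 16, 1⟩, ⟨-1, 1, 1⟩⟩ : Box3).half 1 false).half 1 true).half 0 true).half 0 true).half 1 false).half 2 false) main112 = true := by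
  decide +kernel

/-- Subtree 113. -/
def main113 : Tree := (.cut 1
    (.cut 2
      (.cut 0 (.env 11) (.cut 1 (.cut 2 .dir (.cut 0 (.env 14) (.env 16))) (.env 14)))
      (.cut 0
        (.env 11)
        (.cut 1
          (.cut 2 (.cut 0 (.env 14) (.env 16)) (.cut 0 (.env 14) (.env 16)))
          (.env 14))))
    (.env 11))

theorem main113_ok : checkTree false near nodes ((((((((⟨⟨0, 1, 1⟩, ⟨0, 16, 1⟩, ⟨-1, 1, 1⟩⟩ : Box3).half 1 false).half 1 true).half 0 true).half 0 true).half 1 false).half 2 true).half 0 false) main113 = true := by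
  decide +kernel

/-- Subtree 114. -/
def main114 : Tree := (.cut 2
    .dir
    (.cut 0
      (.cut 1
        .dir
        (.cut 2 .dir (.cut 0 (.cut 2 .dir (.cut 1 .dir (.cut 0 (.env 18) .dir))) .dir)))
      .dir))

theorem main114_ok : checkTree false near nodes ((((((((((((⟨⟨0, 1, 1⟩, ⟨0, 16, 1⟩, ⟨-1, 1, 1⟩⟩ : Box3).half 1 false).half 1 true).half 0 true).half 0 true).half 1 false).half 2 true).half 0 true).half 1 false).half 2 false).half 0 false).half 1 false) main114 = true := by
  decide +kernel

/-- Subtree 115. -/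
def main115 : Tree := (.cut 2
    .dir
    (.cut 0
      (.cut 2
        .dir
        (.cut 1
          (.cut 0 (.cut 2 .dir (.cut 1 (.cut 0 (.env 18) .dir) (.env 18))) .dir)
          (.cut 0 (.env 18) .dir)))
      .dir))

theorem main115_ok : checkTree false near nodes ((((((((((((⟨⟨0, 1, 1⟩, ⟨0, 16, 1⟩, ⟨-1, 1, 1⟩⟩ : Box3).half 1 false).half 1 true).half 0 true).half 0 true).half 1 false).half 2 true).half 0 true).half 1 false).half 2 false).half 0 false).half 1 true) main115 = true := by
  decide +kernel

/-- Subtree 116. -/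
def main116 : Tree := .dir

theorem main116_ok : checkTree false near nodes (((((((((((⟨⟨0, 1, 1⟩, ⟨0, 16, 1⟩, ⟨-1, 1, 1⟩⟩ : Box3).half 1 false).half 1 true).half 0 true).half 0 true).half 1 false).half 2 true).half 0 true).half 1 false).half 2 false).half 0 true) main116 = true := by
  decide +kernel

/-- Subtree 117. -/
def main117 : Tree := (.cut 1
    (.cut 2 .dir .dir)
    (.cut 2
      (.cut 0
        (.cut 2
          (.cut 1 (.cut 0 (.env 18) .dir) (.cut 0 (.env 18) .dir))
          (.cut 1 (.cut 0 (.env 18) .dir) (.cut 0 (.env 18) .dir)))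
        .dir)
      .dir))

theorem main117_ok : checkTree false near nodes ((((((((((((((⟨⟨0, 1, 1⟩, ⟨0, 16, 1⟩, ⟨-1, 1, 1⟩⟩ : Box3).half 1 false).half 1 true).half 0 true).half 0 true).half 1 false).half 2 true).half 0 true).half 1 false).half 2 true).half 0 false).half 1 false).half 2 false).half 0 false) main117 = true := by
  decide +kernel

/-- Subtree 118. -/
def main118 : Tree := .dir

theorem main118_ok : checkTree false near nodes ((((((((((((((⟨⟨0, 1, 1⟩, ⟨0, 16, 1⟩, ⟨-1, 1, 1⟩⟩ : Box3).half 1 false).half 1 true).half 0 true).half 0 true).half 1 false).half 2 true).half 0 true).half 1 false).half 2 true).half 0 false).half 1 false).half 2 false).half 0 true) main118 = true := by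
  decide +kernel

/-- Subtree 119. -/
def main119 : Tree := .disc

theorem main119_ok : checkTree false near nodes (((((((((((((⟨⟨0, 1, 1⟩, ⟨0, 16, 1⟩, ⟨-1, 1, 1⟩⟩ : Box3).half 1 false).half 1 true).half 0 true).half 0 true).half 1 false).half 2 true).half 0 true).half 1 false).half 2 true).half 0 false).half 1 false).half 2 true) main119 = true := by
  decide +kernel

/-- Subtree 120. -/
def main120 : Tree := (.cut 0
    (.cut 2
      (.cut 1 (.cut 0 (.env 18) (.cut 2 .dir .dir)) (.env 18))
      (.cut 1 (.cut 0 (.env 18) .dir) (.env 18)))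
    .dir)

theorem main120_ok : checkTree false near nodes ((((((((((((((((⟨⟨0, 1, 1⟩, ⟨0, 16, 1⟩, ⟨-1, 1, 1⟩⟩ : Box3).half 1 false).half 1 true).half 0 true).half 0 true).half 1 false).half 2 true).half 0 true).half 1 false).half 2 true).half 0 false).half 1 true).half 2 false).half 0 false).half 2 false).half 1 false) main120 = true := by
  decide +kernel

/-- Subtree 121. -/
def main121 : Tree := (.cut 0
    (.env 18)
    (.cut 2 (.cut 0 (.cut 1 .dir (.cut 2 .dir (.cut 0 (.env 19) .dir))) .dir) .dir))

theorem main121_ok : checkTree false near nodes ((((((((((((((((⟨⟨0, 1, 1⟩, ⟨0, 16, 1⟩, ⟨-1, 1, 1⟩⟩ : Box3).half 1 false).half 1 true).half 0 true).half 0 true).half 1 false).half 2 true).half 0 true).half 1 false).half 2 true).half 0 false).half 1 true).half 2 false).half 0 false).half 2 false).half 1 true) main121 = true := by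
  decide +kernel

/-- Subtree 122. -/
def main122 : Tree := (.cut 1 .dir (.cut 0 (.env 18) .dir))

theorem main122_ok : checkTree false near nodes (((((((((((((((⟨⟨0, 1, 1⟩, ⟨0, 16, 1⟩, ⟨-1, 1, 1⟩⟩ : Box3).half 1 false).half 1 true).half 0 true).half 0 true).half 1 false).half 2 true).half 0 true).half 1 false).half 2 true).half 0 false).half 1 true).half 2 false).half 0 false).half 2 true) main122 = true := by
  decide +kernel

/-- Subtree 123. -/
def main123 : Tree := .dir

theorem main123_ok : checkTree false near nodes ((((((((((((((⟨⟨0, 1, 1⟩, ⟨0, 16, 1⟩, ⟨-1, 1, 1⟩⟩ : Box3).half 1 false).half 1 true).half 0 true).half 0 true).half 1 false).half 2 true).half 0 true).half 1 false).half 2 true).half 0 false).half 1 true).half 2 false).half 0 true) main123 = true := by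
  decide +kernel

end Vale.Agent.P237.Quant.FourPoly.Pos
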