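import Vale.Agent.P237.Quant.FourTailData.PolyPos

/-!
The subdivision of the chart of `s`, part 5.
-/

namespace Vale.Agent.P237.Quant.FourPoly.Pos

/-- Subtree 124. -/
def main124 : Tree := .disc

theorem main124_ok : checkTree false near nodes (((((((((((((⟨⟨0, 1, 1⟩, ⟨0, 16, 1⟩, ⟨-1, 1, 1⟩⟩ : Box3).half 1 false).half 1 true).half 0 true).half 0 true).half 1 false).half 2 true).half 0 true).half 1 false).half 2 true).half 0 false).half 1 true).half 2 true) main124 = true := by
  decide +kernel

/-- Subtree 125. -/
def main125 : Tree := .dir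

theorem main125_ok : checkTree false near nodes (((((((((((⟨⟨0, 1, 1⟩, ⟨0, 16, 1⟩, ⟨-1, 1, 1⟩⟩ : Box3).half 1 false).half 1 true).half 0 true).half 0 true).half 1 false).half 2 true).half 0 true).half 1 false).half 2 true).half 0 true) main125 = true := by
  decide +kernel

/-- Subtree 126. -/
def main126 : Tree := (.cut 0
    (.cut 2
      .dir
      (.cut 0
        (.cut 1
          (.cut 2
            .dir
            (.cut 0
              (.env 18)
              (.cut 1
                (.cut 2 .dir (.cut 0 (.env 19) .dir))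
                (.cut 2 .dir (.cut 0 (.env 19) .dir)))))
          (.env 18))
        .dir))
    .dir)

theorem main126_ok : checkTree false near nodes ((((((((((⟨⟨0, 1, 1⟩, ⟨0, 16, 1⟩, ⟨-1, 1, 1⟩⟩ : Box3).half 1 false).half 1 true).half 0 true).half 0 true).half 1 false).half 2 true).half 0 true).half 1 true).half 2 false) main126 = true := by
  decide +kernel

/-- Subtree 127. -/
def main127 : Tree := (.cut 1
    (.cut 2
      (.cut 0
        (.env 18)
        (.cut 1
          (.cut 2 (.cut 0 (.env 19) .dir) (.cut 0 (.env 19) .dir))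
          (.cut 2
            (.cut 0 (.env 19) (.cut 1 .dir (.env 20)))
            (.cut 0 (.env 19) (.cut 1 .dir (.env 20))))))
      (.cut 0 (.env 18) .dir))
    (.env 18))

theorem main127_ok : checkTree false near nodes (((((((((((((⟨⟨0, 1, 1⟩, ⟨0, 16, 1⟩, ⟨-1, 1, 1⟩⟩ : Box3).half 1 false).half 1 true).half 0 true).half 0 true).half 1 false).half 2 true).half 0 true).half 1 true).half 2 true).half 0 false).half 2 false).half 0 false) main127 = true := by
  decide +kernel

/-- Subtree 128. -/
def main128 : Tree := (.cut 1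
    .dir
    (.cut 0
      (.cut 2
        (.cut 1
          .dir
          (.cut 0 (.cut 2 (.cut 1 .dir (.env 20)) (.cut 1 .dir (.env 20))) .dir))
        .dir)
      .dir))

theorem main128_ok : checkTree false near nodes (((((((((((((⟨⟨0, 1, 1⟩, ⟨0, 16, 1⟩, ⟨-1, 1, 1⟩⟩ : Box3).half 1 false).half 1 true).half 0 true).half 0 true).half 1 false).half 2 true).half 0 true).half 1 true).half 2 true).half 0 false).half 2 false).half 0 true) main128 = true := by
  decide +kernel

/-- Subtree 129. -/
def main129 : Tree := .dir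

theorem main129_ok : checkTree false near nodes ((((((((((((⟨⟨0, 1, 1⟩, ⟨0, 16, 1⟩, ⟨-1, 1, 1⟩⟩ : Box3).half 1 false).half 1 true).half 0 true).half 0 true).half 1 false).half 2 true).half 0 true).half 1 true).half 2 true).half 0 false).half 2 true) main129 = true := by
  decide +kernel

/-- Subtree 130. -/
def main130 : Tree := .dir

theorem main130_ok : checkTree false near nodes (((((((((((⟨⟨0, 1, 1⟩, ⟨0, 16, 1⟩, ⟨-1, 1, 1⟩⟩ : Box3).half 1 false).half 1 true).half 0 true).half 0 true).half 1 false).half 2 true).half 0 true).half 1 true).half 2 true).half 0 true) main130 = true := by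
  decide +kernel

/-- Subtree 131. -/
def main131 : Tree := (.env 11)

theorem main131_ok : checkTree false near nodes (((((((⟨⟨0, 1, 1⟩, ⟨0, 16, 1⟩, ⟨-1, 1, 1⟩⟩ : Box3).half 1 false).half 1 true).half 0 true).half 0 true).half 1 true).half 0 false) main131 = true := by
  decide +kernel

/-- Subtree 132. -/
def main132 : Tree := .dir

theorem main132_ok : checkTree false near nodes ((((((((⟨⟨0, 1, 1⟩, ⟨0, 16, 1⟩, ⟨-1, 1, 1⟩⟩ : Box3).half 1 false).half 1 true).half 0 true).half 0 true).half 1 true).half 0 true).half 2 false) main132 = true := by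
  decide +kernel

/-- Subtree 133. -/
def main133 : Tree := (.cut 1
    (.cut 0
      (.env 18)
      (.cut 2
        .dir
        (.cut 1
          (.cut 0 (.cut 2 .dir (.cut 1 .dir (.cut 0 (.env 20) .dir))) .dir)
          (.cut 0 (.env 20) .dir))))
    (.cut 0 (.env 18) (.cut 2 .dir (.cut 0 (.env 20) .dir))))

theorem main133_ok : checkTree false near nodes ((((((((((⟨⟨0, 1, 1⟩, ⟨0, 16, 1⟩, ⟨-1, 1, 1⟩⟩ : Box3).half 1 false).half 1 true).half 0 true).half 0 true).half 1 true).half 0 true).half 2 true).half 0 false).half 2 false) main133 = true := by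
  decide +kernel

/-- Subtree 134. -/
def main134 : Tree := (.cut 0
    (.env 18)
    (.cut 2
      (.cut 1
        (.cut 0
          (.cut 2
            (.cut 1 (.cut 0 (.env 20) .dir) (.cut 0 (.env 20) (.cut 2 .dir .dir)))
            .dir)
          .dir)
        (.cut 0 (.env 20) (.cut 2 .dir .dir)))
      .disc))

theorem main134_ok : checkTree false near nodes (((((((((((⟨⟨0, 1, 1⟩, ⟨0, 16, 1⟩, ⟨-1, 1, 1⟩⟩ : Box3).half 1 false).half 1 true).half 0 true).half 0 true).half 1 true).half 0 true).half 2 true).half 0 false).half 2 true).half 1 false) main134 = true := by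
  decide +kernel

/-- Subtree 135. -/
def main135 : Tree := (.cut 0
    (.env 18)
    (.cut 2
      (.cut 0
        (.env 20)
        (.cut 1
          (.cut 2 (.cut 0 (.cut 1 .dir (.env 22)) .dir) .dir)
          (.cut 2 (.cut 0 (.env 22) .dir) .dir)))
      .dir))

theorem main135_ok : checkTree false near nodes (((((((((((⟨⟨0, 1, 1⟩, ⟨0, 16, 1⟩, ⟨-1, 1, 1⟩⟩ : Box3).half 1 false).half 1 true).half 0 true).half 0 true).half 1 true).half 0 true).half 2 true).half 0 false).half 2 true).half 1 true) main135 = true := by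
  decide +kernel

/-- Subtree 136. -/
def main136 : Tree := (.cut 2 .dir (.cut 1 .dir (.cut 0 (.cut 2 .dir .disc) .dir)))

theorem main136_ok : checkTree false near nodes (((((((((⟨⟨0, 1, 1⟩, ⟨0, 16, 1⟩, ⟨-1, 1, 1⟩⟩ : Box3).half 1 false).half 1 true).half 0 true).half 0 true).half 1 true).half 0 true).half 2 true).half 0 true) main136 = true := by
  decide +kernel

/-- Subtree 137. -/
def main137 : Tree := (.env 0)

theorem main137_ok : checkTree false near nodes (((⟨⟨0, 1, 1⟩, ⟨0, 16, 1⟩, ⟨-1, 1, 1⟩⟩ : Box3).half 1 true).half 0 false) main137 = true := by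
  decide +kernel

/-- Subtree 138. -/
def main138 : Tree := (.env 3)

theorem main138_ok : checkTree false near nodes ((((⟨⟨0, 1, 1⟩, ⟨0, 16, 1⟩, ⟨-1, 1, 1⟩⟩ : Box3).half 1 true).half 0 true).half 0 false) main138 = true := by
  decide +kernel

/-- Subtree 139. -/
def main139 : Tree := (.env 11)

theorem main139_ok : checkTree false near nodes (((((⟨⟨0, 1, 1⟩, ⟨0, 16, 1⟩, ⟨-1, 1, 1⟩⟩ : Box3).half 1 true).half 0 true).half 0 true).half 0 false) main139 = true := by
  decide +kernel

/-- Subtree 140. -/
def main140 : Tree := .dir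

theorem main140_ok : checkTree false near nodes (((((((⟨⟨0, 1, 1⟩, ⟨0, 16, 1⟩, ⟨-1, 1, 1⟩⟩ : Box3).half 1 true).half 0 true).half 0 true).half 0 true).half 1 false).half 2 false) main140 = true := by
  decide +kernel

/-- Subtree 141. -/
def main141 : Tree := (.cut 1
    (.cut 2
      (.cut 0
        (.env 18)
        (.cut 1 (.cut 2 .dir (.cut 0 (.env 20) (.cut 1 .dir (.env 22)))) (.env 20)))
      (.cut 0
        (.env 18)
        (.cut 1
          (.cut 2
            (.cut 0
              (.env 20)
              (.cut 1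
                (.cut 2
                  (.cut 0 (.env 22) (.cut 1 .dir (.env 23)))
                  (.cut 0 (.env 22) .dir))
                (.env 22)))
            .dir)
          (.env 20))))
    (.env 18))

theorem main141_ok : checkTree false near nodes ((((((((⟨⟨0, 1, 1⟩, ⟨0, 16, 1⟩, ⟨-1, 1, 1⟩⟩ : Box3).half 1 true).half 0 true).half 0 true).half 0 true).half 1 false).half 2 true).half 0 false) main141 = true := by
  decide +kernel

/-- Subtree 142. -/
def main142 : Tree := .dir

theorem main142_ok : checkTree false near nodes ((((((((((⟨⟨0, 1, 1⟩, ⟨0, 16, 1⟩, ⟨-1, 1, 1⟩⟩ : Box3).half 1 true).half 0 true).half 0 true).half 0 true).half 1 false).half 2 true).half 0 true).half 1 false).half 2 false) main142 = true := by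
  decide +kernel

/-- Subtree 143. -/
def main143 : Tree := (.cut 2 (.cut 0 (.cut 1 .dir (.cut 2 .dir .dir)) .dir) .dir)

theorem main143_ok : checkTree false near nodes ((((((((((((⟨⟨0, 1, 1⟩, ⟨0, 16, 1⟩, ⟨-1, 1, 1⟩⟩ : Box3).half 1 true).half 0 true).half 0 true).half 0 true).half 1 false).half 2 true).half 0 true).half 1 false).half 2 true).half 0 false).half 1 false) main143 = true := by
  decide +kernel

/-- Subtree 144. -/
def main144 : Tree := (.cut 2 (.cut 0 (.cut 2 (.cut 1 .dir (.cut 0 (.env 24) .dir)) .dir) .dir) .dir)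

theorem main144_ok : checkTree false near nodes ((((((((((((⟨⟨0, 1, 1⟩, ⟨0, 16, 1⟩, ⟨-1, 1, 1⟩⟩ : Box3).half 1 true).half 0 true).half 0 true).half 0 true).half 1 false).half 2 true).half 0 true).half 1 false).half 2 true).half 0 false).half 1 true) main144 = true := by
  decide +kernel

/-- Subtree 145. -/
def main145 : Tree := .dir

theorem main145_ok : checkTree false near nodes (((((((((((⟨⟨0, 1, 1⟩, ⟨0, 16, 1⟩, ⟨-1, 1, 1⟩⟩ : Box3).half 1 true).half 0 true).half 0 true).half 0 true).half 1 false).half 2 true).half 0 true).half 1 false).half 2 true).half 0 true) main145 = true := by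
  decide +kernel

/-- Subtree 146. -/
def main146 : Tree := (.cut 2
    .dir
    (.cut 0
      (.cut 2
        (.cut 0
          (.cut 1 (.cut 2 (.cut 0 (.env 24) .dir) (.cut 0 (.env 24) .dir)) (.env 24))
          .dir)
        .dir)
      .dir))

theorem main146_ok : checkTree false near nodes (((((((((⟨⟨0, 1, 1⟩, ⟨0, 16, 1⟩, ⟨-1, 1, 1⟩⟩ : Box3).half 1 true).half 0 true).half 0 true).half 0 true).half 1 false).half 2 true).half 0 true).half 1 true) main146 = true := by
  decide +kernel

/-- Subtree 147. -/
def main147 : Tree := (.env 18)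

theorem main147_ok : checkTree false near nodes (((((((⟨⟨0, 1, 1⟩, ⟨0, 16, 1⟩, ⟨-1, 1, 1⟩⟩ : Box3).half 1 true).half 0 true).half 0 true).half 0 true).half 1 true).half 0 false) main147 = true := by
  decide +kernel

/-- Subtree 148. -/
def main148 : Tree := .dir

theorem main148_ok : checkTree false near nodes ((((((((⟨⟨0, 1, 1⟩, ⟨0, 16, 1⟩, ⟨-1, 1, 1⟩⟩ : Box3).half 1 true).half 0 true).half 0 true).half 0 true).half 1 true).half 0 true).half 2 false) main148 = true := by
  decide +kernel

/-- Subtree 149. -/
def main149 : Tree := (.cut 1 (.cut 0 (.env 24) .dir) (.cut 0 (.env 24) .dir))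

theorem main149_ok : checkTree false near nodes ((((((((((⟨⟨0, 1, 1⟩, ⟨0, 16, 1⟩, ⟨-1, 1, 1⟩⟩ : Box3).half 1 true).half 0 true).half 0 true).half 0 true).half 1 true).half 0 true).half 2 true).half 0 false).half 2 false) main149 = true := by
  decide +kernel

/-- Subtree 150. -/
def main150 : Tree := (.cut 1
    (.cut 0
      (.env 24)
      (.cut 2 (.cut 1 (.cut 0 (.cut 2 .dir .dir) .dir) (.cut 0 (.env 27) .dir)) .dir))
    (.cut 0 (.env 24) (.cut 2 (.cut 0 (.env 27) .dir) .dir)))

theorem main150_ok : checkTree false near nodes ((((((((((⟨⟨0, 1, 1⟩, ⟨0, 16, 1⟩, ⟨-1, 1, 1⟩⟩ : Box3).half 1 true).half 0 true).half 0 true).half 0 true).half 1 true).half 0 true).half 2 true).half 0 false).half 2 true) main150 = true := by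
  decide +kernel

end Vale.Agent.P237.Quant.FourPoly.Pos
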