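import Vale.Agent.P237.Quant.FourTailData.PolyPos

/-!
The subdivision of the chart of `s`, part 6.
-/

namespace Vale.Agent.P237.Quant.FourPoly.Pos

/-- Subtree 151. -/
def main151 : Tree := (.cut 2 .dir (.cut 1 .dir (.cut 0 (.cut 2 .dir .dir) .dir)))

theorem main151_ok : checkTree false near nodes (((((((((⟨⟨0, 1, 1⟩, ⟨0, 16, 1⟩, ⟨-1, 1, 1⟩⟩ : Box3).half 1 true).half 0 true).half 0 true).half 0 true).half 1 true).half 0 true).half 2 true).half 0 true) main151 = true := by
  decide +kernel

end Vale.Agent.P237.Quant.FourPoly.Pos
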