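import Vale.Agent.P237.Quant.FourPolySound
import Vale.Agent.P237.Quant.FourTailData.TreePos0
import Vale.Agent.P237.Quant.FourTailData.TreePos1
import Vale.Agent.P237.Quant.FourTailData.TreePos2
import Vale.Agent.P237.Quant.FourTailData.TreePos3
import Vale.Agent.P237.Quant.FourTailData.TreePos4
import Vale.Agent.P237.Quant.FourTailData.TreePos5
import Vale.Agent.P237.Quant.FourTailData.TreePos6

/-!
The subdivision of the chart of `s` put together.
-/

namespace Vale.Agent.P237.Quant.FourPoly.Pos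

/-- The subdivision. -/
def mainTree : Tree := (.cut 1 (.cut 1 (.cut 1 (.cut 1 (.cut 0 (.cut 1 (.cut 2 main0 main1) main2) main3) (.cut 0 (.cut 1 (.cut 2 main4 (.cut 0 main5 (.cut 1 (.cut 2 (.cut 0 main6 (.cut 1 main7 main8)) main9) (.cut 2 main10 main11)))) (.cut 2 main12 main13)) (.cut 1 (.cut 2 main14 (.cut 0 (.cut 1 (.cut 2 (.cut 0 (.cut 1 main15 main16) (.cut 1 main17 main18)) main19) (.cut 2 (.cut 0 main20 main21) main22)) (.cut 1 (.cut 2 (.cut 0 (.cut 1 (.cut 2 (.cut 0 main23 (.cut 1 main24 main25)) main26) main27) (.cut 1 (.cut 2 (.cut 0 (.cut 1 main28 main29) (.cut 1 (.cut 2 (.cut 0 main30 main31) main32) main33)) main34) main35)) main36) main37))) (.cut 2 main38 (.cut 0 (.cut 2 (.cut 0 main39 (.cut 1 (.cut 2 main40 (.cut 0 main41 main42)) (.cut 2 main43 (.cut 0 main44 (.cut 1 (.cut 2 main45 main46) main47))))) main48) (.cut 2 (.cut 0 main49 (.cut 1 main50 main51)) main52)))))) (.cut 0 main53 (.cut 1 (.cut 2 main54 (.cut 0 (.cut 1 (.cut 2 main55 main56)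 main57) (.cut 1 (.cut 2 (.cut 0 (.cut 1 (.cut 2 main58 (.cut 0 (.cut 1 main59 (.cut 2 main60 (.cut 0 main61 main62))) main63)) (.cut 2 main64 (.cut 0 (.cut 2 main65 (.cut 1 main66 main67)) main68))) main69) (.cut 0 (.cut 1 (.cut 2 main70 main71) (.cut 2 (.cut 0 (.cut 2 main72 main73) main74) main75)) main76)) (.cut 2 (.cut 0 (.cut 2 main77 (.cut 0 main78 (.cut 1 main79 (.cut 0 main80 main81)))) main82) (.cut 0 (.cut 2 (.cut 0 main83 (.cut 1 main84 (.cut 0 main85 main86))) main87) main88))))) (.cut 0 main89 (.cut 2 main90 (.cut 0 (.cut 2 (.cut 1 (.cut 0 main91 (.cut 2 main92 (.cut 1 main93 main94))) (.cut 0 main95 (.cut 2 main96 (.cut 0 main97 (.cut 1 main98 main99))))) (.cut 1 (.cut 0 main100 (.cut 2 (.cut 1 main101 main102) main103)) (.cut 0 main104 (.cut 2 (.cut 0 main105 (.cut 1 main106 main107)) main108)))) main109)))))) (.cut 0 main110 (.cut 0 main111 (.cut 1 (.cut 2 main112 (.cut 0 main113 (.cut 1 (.cut 2 (.cut 0 (.cut 1 main114 main115) main116) (.cut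 0 (.cut 1 (.cut 2 (.cut 0 main117 main118) main119) (.cut 2 (.cut 0 (.cut 2 (.cut 1 main120 main121) main122) main123) main124)) main125)) (.cut 2 main126 (.cut 0 (.cut 2 (.cut 0 main127 main128) main129) main130))))) (.cut 0 main131 (.cut 2 main132 (.cut 0 (.cut 2 main133 (.cut 1 main134 main135)) main136))))))) (.cut 0 main137 (.cut 0 main138 (.cut 0 main139 (.cut 1 (.cut 2 main140 (.cut 0 main141 (.cut 1 (.cut 2 main142 (.cut 0 (.cut 1 main143 main144) main145)) main146))) (.cut 0 main147 (.cut 2 main148 (.cut 0 (.cut 2 main149 main150) main151))))))))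

theorem mainTree_ok : checkTree false near nodes (⟨⟨0, 1, 1⟩, ⟨0, 16, 1⟩, ⟨-1, 1, 1⟩⟩ : Box3) mainTree = true :=
  (cut_ok (cut_ok (cut_ok (cut_ok (cut_ok (cut_ok (cut_ok main0_ok main1_ok) main2_ok) main3_ok) (cut_ok (cut_ok (cut_ok main4_ok (cut_ok main5_ok (cut_ok (cut_ok (cut_ok main6_ok (cut_ok main7_ok main8_ok)) main9_ok) (cut_ok main10_ok main11_ok)))) (cut_ok main12_ok main13_ok)) (cut_ok (cut_ok main14_ok (cut_ok (cut_ok (cut_ok (cut_ok (cut_ok main15_ok main16_ok) (cut_ok main17_ok main18_ok)) main19_ok) (cut_ok (cut_ok main20_ok main21_ok) main22_ok)) (cut_ok (cut_ok (cut_ok (cut_ok (cut_ok (cut_ok main23_ok (cut_ok main24_ok main25_ok)) main26_ok) main27_ok) (cut_ok (cut_ok (cut_ok (cut_ok main28_ok main29_ok) (cut_ok (cut_ok (cut_ok main30_ok main31_ok) main32_ok) main33_ok)) main34_ok) main35_ok)) main36_ok) main37_ok))) (cut_ok main38_ok (cut_ok (cut_ok (cut_ok main39_ok (cut_ok (cut_ok main40_ok (cut_ok main41_ok main42_ok)) (cut_ok main43_ok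 (cut_ok main44_ok (cut_ok (cut_ok main45_ok main46_ok) main47_ok))))) main48_ok) (cut_ok (cut_ok main49_ok (cut_ok main50_ok main51_ok)) main52_ok)))))) (cut_ok main53_ok (cut_ok (cut_ok main54_ok (cut_ok (cut_ok (cut_ok main55_ok main56_ok) main57_ok) (cut_ok (cut_ok (cut_ok (cut_ok (cut_ok main58_ok (cut_ok (cut_ok main59_ok (cut_ok main60_ok (cut_ok main61_ok main62_ok))) main63_ok)) (cut_ok main64_ok (cut_ok (cut_ok main65_ok (cut_ok main66_ok main67_ok)) main68_ok))) main69_ok) (cut_ok (cut_ok (cut_ok main70_ok main71_ok) (cut_ok (cut_ok (cut_ok main72_ok main73_ok) main74_ok) main75_ok)) main76_ok)) (cut_ok (cut_ok (cut_ok main77_ok (cut_ok main78_ok (cut_ok main79_ok (cut_ok main80_ok main81_ok)))) main82_ok) (cut_ok (cut_ok (cut_ok main83_ok (cut_ok main84_ok (cut_ok main85_ok main86_ok))) main87_ok) main88_ok))))) (cut_ok main89_ok (cut_ok main90_ok (cut_ok (cut_ok (cut_ok (cut_ok main91_ok (cut_ok main92_ok (cut_ok main93_ok main94_ok))) (cut_ok main95_ok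 (cut_ok main96_ok (cut_ok main97_ok (cut_ok main98_ok main99_ok))))) (cut_ok (cut_ok main100_ok (cut_ok (cut_ok main101_ok main102_ok) main103_ok)) (cut_ok main104_ok (cut_ok (cut_ok main105_ok (cut_ok main106_ok main107_ok)) main108_ok)))) main109_ok)))))) (cut_ok main110_ok (cut_ok main111_ok (cut_ok (cut_ok main112_ok (cut_ok main113_ok (cut_ok (cut_ok (cut_ok (cut_ok main114_ok main115_ok) main116_ok) (cut_ok (cut_ok (cut_ok (cut_ok main117_ok main118_ok) main119_ok) (cut_ok (cut_ok (cut_ok (cut_ok main120_ok main121_ok) main122_ok) main123_ok) main124_ok)) main125_ok)) (cut_ok main126_ok (cut_ok (cut_ok (cut_ok main127_ok main128_ok) main129_ok) main130_ok))))) (cut_ok main131_ok (cut_ok main132_ok (cut_ok (cut_ok main133_ok (cut_ok main134_ok main135_ok)) main136_ok))))))) (cut_ok main137_ok (cut_ok main138_ok (cut_ok main139_ok (cut_ok (cut_ok main140_ok (cut_ok main141_ok (cut_ok (cut_ok main142_ok (cut_ok (cut_ok main143_ok main144_ok) main145_ok)) main146_ok)))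 (cut_ok main147_ok (cut_ok main148_ok (cut_ok (cut_ok main149_ok main150_ok) main151_ok))))))))

end Vale.Agent.P237.Quant.FourPoly.Pos
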